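import Crest.Agent.N067.A.Calc

/-!
# Row 67, basics: the Alberti-Ambrosio-Cabré energy bound (helper85)
-/

set_option autoImplicit false

open MeasureTheory Laplacian InnerProductSpace Topology Filter Set Metric
open scoped RealInnerProductSpace Gradient ContDiff

namespace Crest.Agent.N067

open Crest.Agent.R077

noncomputable section

namespace Aac

theorem exists_deriv_bound : ∃ M : ℝ, 0 ≤ M ∧ ∀ s, |deriv Real.smoothTransition s| ≤ M ∧
    (s < 0 ∨ 1 < s → deriv Real.smoothTransition s = 0) := by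
  have hc : Continuous (deriv Real.smoothTransition) :=
    (Real.smoothTransition.contDiff (n := 1)).continuous_deriv le_rfl
  obtain ⟨M, hM⟩ := isCompact_Icc.exists_bound_of_continuousOn
    (s := Icc (0 : ℝ) 1) hc.continuousOn
  have h0 : ∀ s, s < 0 ∨ 1 < s → deriv Real.smoothTransition s = 0 := by
    rintro s (h | h)
    · have : Real.smoothTransition =ᶠ[𝓝 s] fun _ => 0 := by
        filter_upwards [Iio_mem_nhds h] with t ht using Real.smoothTransition.zero_of_nonpos ht.le
      rw [this.deriv_eq]; simp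
    · have : Real.smoothTransition =ᶠ[𝓝 s] fun _ => 1 := by
        filter_upwards [Ioi_mem_nhds h] with t ht using Real.smoothTransition.one_of_one_le ht.le
      rw [this.deriv_eq]; simp
  refine ⟨max M 0, le_max_right _ _, fun s => ⟨?_, h0 s⟩⟩
  by_cases hs : s ∈ Icc (0 : ℝ) 1
  · exact (hM s hs).trans (le_max_left _ _)
  · rw [h0 s (by simpa only [mem_Icc, not_and_or, not_le] using hs)]; simp



variable {n : ℕ}

theorem en_eq (u : EE n → ℝ) : en u = fun z => 2⁻¹ * gsq u z + 4⁻¹ * (1 - u z ^ 2) ^ 2 := by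
  funext z; rw [en, gsq_eq]; ring

theorem en_nonneg (u : EE n → ℝ) (z : EE n) : 0 ≤ en u z := by unfold en; positivity

theorem contDiff_en {u : EE n → ℝ} (hu : ContDiff ℝ 2 u) : ContDiff ℝ 1 (en u) := by
  rw [en_eq]
  have h1 : ContDiff ℝ 1 (gsq u) :=
    contDiff_iff_contDiffAt.2 fun z => contDiffAt_gsq hu.contDiffAt (by norm_num)
  have h2 : ContDiff ℝ 1 u := hu.of_le (by norm_num)
  exact (contDiff_const.mul h1).add (contDiff_const.mul ((contDiff_const.sub (h2.pow 2)).pow 2))

theorem pdv_en {u : EE n → ℝ} (hu : IsSol u) (k : Fin n) (z : EE n) :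
    pdv k (en u) z = ∑ i, pdv i (fun y => pdv i u y * pdv k u y) z := by
  have h2 := hu.c2.contDiffAt (x := z)
  have d1 : DifferentiableAt ℝ (gsq u) z :=
    (contDiffAt_gsq (m := 1) h2 (by norm_num)).differentiableAt one_ne_zero
  have d2 : DifferentiableAt ℝ u z := h2.differentiableAt (by norm_num)
  have d3 : DifferentiableAt ℝ (fun y => 1 - u y ^ 2) z := (d2.pow 2).const_sub 1
  have d4 : DifferentiableAt ℝ (fun y => (1 - u y ^ 2) ^ 2) z := d3.pow 2
  rw [en_eq, pdv_add (d1.const_mul _) (d4.const_mul _), pdv_const_mul d1,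
    pdv_const_mul d4, pdv_sq d3, pdv_const_sub, pdv_sq d2, pdv_gsq h2,
    Finset.sum_congr rfl fun i _ => pdv_mul (diffAt_pdv h2 i) (diffAt_pdv h2 k) i,
    Finset.sum_add_distrib, ← Finset.sum_mul, ← lap_eq h2, hu.eq]
  simp only [pdv_comm h2 k]
  ring

theorem cont_pdv {f : EE n → ℝ} (hf : ContDiff ℝ 1 f) (i : Fin n) : Continuous (pdv i f) :=
  (contDiff_pdv (m := 0) hf (by norm_num) i).continuous

theorem cont_rho {η : EE n → ℝ} (hη : ContDiff ℝ 1 η) : Continuous fun z => ∑ i, |pdv i η z| :=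
  continuous_finsetSum _ fun i _ => (cont_pdv hη i).abs

theorem supp_rho {η : EE n → ℝ} (hc : HasCompactSupport η) :
    HasCompactSupport fun z => ∑ i, |pdv i η z| := by
  refine hc.mono' fun z hz => ?_
  by_contra h
  refine hz (Finset.sum_eq_zero fun i _ => ?_)
  rw [pdv, fderiv_of_notMem_tsupport ℝ h]; simp

/-- the flux inequality -/
theorem flux {u η : EE n → ℝ} (hu : IsSol u) (k : Fin n) (hk : ∀ z, 0 ≤ pdv k u z) {M : ℝ}
    (hM : ∀ i z, |pdv i u z| ≤ M) (hη : ContDiff ℝ 1 η) (hc : HasCompactSupport η) :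
    0 ≤ (∫ z, η z * pdv k (en u) z) + M * ∫ z, (∑ i, |pdv i η z|) * pdv k u z := by
  have p1 : ∀ i, ContDiff ℝ 1 (pdv i u) := fun i => contDiff_pdv hu.c2 (by norm_num) i
  have p2 : ∀ i, ContDiff ℝ 1 fun y => pdv i u y * pdv k u y := fun i => (p1 i).mul (p1 k)
  have i1 : ∀ i, Integrable fun z => pdv i (fun y => pdv i u y * pdv k u y) z * η z := fun i =>
    ((cont_pdv (p2 i) i).mul hη.continuous).integrable_of_hasCompactSupport hc.mul_left
  have i2 : ∀ i, Integrable fun z => pdv i u z * pdv k u z * pdv i η z := fun i =>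
    ((p2 i).continuous.mul (cont_pdv hη i)).integrable_of_hasCompactSupport
      (hasCompactSupport_pdv hc i).mul_left
  have e : ∫ z, η z * pdv k (en u) z = -∫ z, ∑ i, pdv i u z * pdv k u z * pdv i η z := by
    rw [integral_finsetSum _ fun i _ => i2 i, ← Finset.sum_neg_distrib,
      ← Finset.sum_congr rfl fun i _ => ibp_right (p2 i) hη hc i,
      ← integral_finsetSum _ fun i _ => i1 i]
    refine integral_congr_ae (ae_of_all _ fun z => ?_)
    simp only [pdv_en hu, Finset.mul_sum, mul_comm]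
  rw [e, neg_add_eq_sub, sub_nonneg, ← integral_const_mul]
  refine integral_mono (integrable_finsetSum _ fun i _ => i2 i)
    ((((cont_rho hη).mul (p1 k).continuous).integrable_of_hasCompactSupport
      (supp_rho hc).mul_right).const_mul M) fun z => ?_
  simp only [Finset.sum_mul, Finset.mul_sum]
  refine Finset.sum_le_sum fun i _ => ?_
  have h1 : pdv i u z * pdv i η z ≤ M * |pdv i η z| :=
    (le_abs_self _).trans (by rw [abs_mul]; exact mul_le_mul_of_nonneg_right (hM i z) (abs_nonneg _))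
  have := mul_le_mul_of_nonneg_right h1 (hk z)
  calc _ = pdv i u z * pdv i η z * pdv k u z := by ring
    _ ≤ _ := this
    _ = _ := by ring

/-- differentiation of a translated pairing -/
theorem hasDerivAt_shift {a g : EE n → ℝ} (ha : Continuous a) (hc : HasCompactSupport a)
    (hg : ContDiff ℝ 1 g) (k : Fin n) (s : ℝ) :
    HasDerivAt (fun s : ℝ => ∫ z, a z * g (z + s • ev k)) (∫ z, a z * pdv k g (z + s • ev k)) s := by
  have hK : IsCompact ((fun p : EE n × ℝ => p.1 + p.2 • ev k) '' (tsupport a ×ˢ closedBall s 1)) :=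
    (hc.isCompact.prod (isCompact_closedBall s 1)).image (by fun_prop)
  obtain ⟨B, hB⟩ := hK.exists_bound_of_continuousOn (cont_pdv hg k).continuousOn
  have c1 : ∀ t : ℝ, Continuous fun z => a z * g (z + t • ev k) := fun t =>
    ha.mul (hg.continuous.comp (by fun_prop))
  refine (hasDerivAt_integral_of_dominated_loc_of_deriv_le (μ := volume)
    (F := fun (t : ℝ) z => a z * g (z + t • ev k)) (F' := fun (t : ℝ) z => a z * pdv k g (z + t • ev k))
    (bound := fun z => |a z| * B) (ball_mem_nhds s one_pos)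
    (Eventually.of_forall fun t => (c1 t).aestronglyMeasurable)
    ((c1 s).integrable_of_hasCompactSupport hc.mul_right)
    (ha.mul ((cont_pdv hg k).comp (by fun_prop))).aestronglyMeasurable
    (ae_of_all _ fun z t ht => ?_)
    ((ha.integrable_of_hasCompactSupport hc).abs.mul_const B) (ae_of_all _ fun z t _ => ?_)).2
  · rw [norm_mul, Real.norm_eq_abs]
    by_cases hz : z ∈ tsupport a
    · exact mul_le_mul_of_nonneg_left (hB _ ⟨(z, t), ⟨hz, ball_subset_closedBall ht⟩, rfl⟩)
        (abs_nonneg _)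
    · simp [image_eq_zero_of_notMem_tsupport hz]
  · have h1 : HasDerivAt (fun t : ℝ => z + t • ev k) (ev k) t := by
      simpa using ((hasDerivAt_id t).smul_const (ev k)).const_add z
    exact ((hg.differentiable one_ne_zero _).hasFDerivAt.comp_hasDerivAt t h1).const_mul (a z)

theorem pdv_shift (f : EE n → ℝ) (a : EE n) (i : Fin n) (z : EE n) :
    pdv i (fun y => f (y + a)) z = pdv i f (z + a) := by
  rw [pdv, pdv, fderiv_comp_add_right]

theorem en_shift (u : EE n → ℝ) (a : EE n) : en (fun y => u (y + a)) = fun z => en u (z + a) := by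
  funext z; simp only [en_eq, gsq, pdv_shift]

theorem isSol_shift {u : EE n → ℝ} (hu : IsSol u) (a : EE n) : IsSol fun y => u (y + a) := by
  have h2 : ContDiff ℝ 2 fun y => u (y + a) := hu.c2.comp (contDiff_id.add contDiff_const)
  refine ⟨h2, fun z => hu.bd _, fun z => ?_⟩
  rw [lap_eq h2.contDiffAt, ← hu.eq, lap_eq hu.c2.contDiffAt]
  refine Finset.sum_congr rfl fun i _ => ?_
  rw [← pdv_shift]
  congr 1
  funext y
  exact pdv_shift u a i y

/-- the localised energy of the translates drops by at most `2 M ∫ |∇η|` -/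
theorem drop {u η : EE n → ℝ} (hu : IsSol u) (k : Fin n) (hk : ∀ z, 0 ≤ pdv k u z) {M : ℝ}
    (hM0 : 0 ≤ M) (hM : ∀ i z, |pdv i u z| ≤ M) (hη : ContDiff ℝ 1 η) (hc : HasCompactSupport η)
    {s : ℝ} (hs : 0 ≤ s) :
    ∫ z, η z * en u z ≤ (∫ z, η z * en u (z + s • ev k)) + 2 * M * ∫ z, ∑ i, |pdv i η z| := by
  have u1 : ContDiff ℝ 1 u := hu.c2.of_le (by norm_num)
  have hd := fun t => (hasDerivAt_shift hη.continuous hc (contDiff_en hu.c2) k t).add
    ((hasDerivAt_shift (cont_rho hη) (supp_rho hc) u1 k t).const_mul M)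
  have hm := monotone_of_deriv_nonneg (fun t => (hd t).differentiableAt) (fun t => by
    rw [(hd t).deriv]
    have := flux (isSol_shift hu (t • ev k)) k (fun z => by rw [pdv_shift]; exact hk _)
      (fun i z => by rw [pdv_shift]; exact hM i _) hη hc
    simpa only [en_shift, pdv_shift] using this) hs
  simp only [Pi.add_apply, zero_smul, add_zero] at hm
  have ir := (cont_rho hη).integrable_of_hasCompactSupport (μ := volume) (supp_rho hc)
  have hb : ∀ a : EE n, |∫ z, (∑ i, |pdv i η z|) * u (z + a)| ≤ ∫ z, ∑ i, |pdv i η z| := fun a => by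
    rw [← Real.norm_eq_abs]
    refine norm_integral_le_of_norm_le ir (ae_of_all _ fun z => ?_)
    have h0 : 0 ≤ ∑ i, |pdv i η z| := Finset.sum_nonneg fun _ _ => abs_nonneg _
    rw [norm_mul, Real.norm_of_nonneg h0]
    exact mul_le_of_le_one_right h0 (hu.bd _)
  have h1 := mul_le_mul_of_nonneg_left (abs_le.1 (hb (s • ev k))).2 hM0
  have h2 := mul_le_mul_of_nonneg_left (abs_le.1 (hb 0)).1 hM0
  simp only [add_zero] at h2
  linarith


theorem snoc_eq (z : EE (n + 1)) (s : ℝ) :
    z + s • ev (Fin.last n) = snoc (init z) (z (Fin.last n) + s) := by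
  ext i
  refine Fin.lastCases ?_ (fun j => ?_) i
  · simp [snoc]
  · simp [snoc, init, Fin.init, (Fin.castSucc_lt_last j).ne]

theorem setInt_le {f η : EE n → ℝ} (hf : Continuous f) (h0 : ∀ z, 0 ≤ f z) (hη : Continuous η)
    (hc : HasCompactSupport η) (hη0 : ∀ z, 0 ≤ η z) {x : EE n} {R : ℝ}
    (h1 : ∀ z ∈ ball x R, η z = 1) : ∫ z in ball x R, f z ≤ ∫ z, η z * f z := by
  rw [← setIntegral_congr_fun measurableSet_ball
    (fun z hz => by simp only [h1 z hz, one_mul] : EqOn (fun z => η z * f z) f (ball x R))]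
  exact setIntegral_le_integral ((hη.mul hf).integrable_of_hasCompactSupport hc.mul_right)
    (ae_of_all _ fun z => mul_nonneg (hη0 z) (h0 z))

theorem le_setInt {f η : EE n → ℝ} (hf : Continuous f) (h0 : ∀ z, 0 ≤ f z)
    (hη : ∀ z, 0 ≤ η z ∧ η z ≤ 1) {x : EE n} {R : ℝ}
    (h1 : ∀ z ∉ ball x R, η z = 0) : ∫ z, η z * f z ≤ ∫ z in ball x R, f z := by
  rw [← setIntegral_eq_integral_of_forall_compl_eq_zero (s := ball x R)
    fun z hz => by rw [h1 z hz, zero_mul]]
  exact integral_mono_of_nonneg (ae_of_all _ fun z => mul_nonneg (hη z).1 (h0 z))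
    ((hf.continuousOn.integrableOn_compact (isCompact_closedBall x R)).mono_set
      ball_subset_closedBall) (ae_of_all _ fun z => mul_le_of_le_one_left (h0 z) (hη z).2)

theorem hasDerivAt_tanh (s : ℝ) : HasDerivAt Real.tanh (1 - Real.tanh s ^ 2) s := by
  have hc := (Real.cosh_pos s).ne'
  have h := (Real.hasDerivAt_sinh s).div (Real.hasDerivAt_cosh s) hc
  have e : Real.tanh = Real.sinh / Real.cosh := funext fun t => Real.tanh_eq_sinh_div_cosh t
  rw [← e] at h
  have e2 : 1 - Real.tanh s ^ 2 =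
      (Real.cosh s * Real.cosh s - Real.sinh s * Real.sinh s) / Real.cosh s ^ 2 := by
    rw [Real.tanh_eq_sinh_div_cosh s]; field_simp
  rw [e2]; exact h


end Aac

open Aac



end

end Crest.Agent.N067
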