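import Crest.Agent.N067.A.Reg

/-!
Row 67, basics (helper2): the gradient of the heat semigroup and of the resolvent on functions of
exponential growth; the bound `∫ |∇ G_μ| e^{a|z|} ≤ cG / √μ`; gradient representation.
-/

set_option autoImplicit false

open MeasureTheory Laplacian InnerProductSpace Topology Filter Set
open scoped RealInnerProductSpace ContDiff

namespace Crest.Agent.N067.Ker

open Crest.Agent.R077

noncomputable section

variable {n : ℕ}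

/-- constant of the weighted gradient bound -/
def cT (n : ℕ) (θ : ℝ) : ℝ := √(1 / (1 - θ)) / 2 * (θ ^ (-(n / 2 : ℝ)) * (1 - θ) ^ (-(n / 2 : ℝ)))


theorem hk_div_norm_exp_le {s θ : ℝ} (hs : 0 < s) (h0 : 0 < θ) (h1 : θ < 1) (a : ℝ) (z : EE n) :
    hk s z / (2 * s) * ‖z‖ * Real.exp (a * ‖z‖) ≤
      cT n θ * (s ^ (-(1 / 2 : ℝ)) * Real.exp (a ^ 2 / θ ^ 2 * s)) * hk (s / θ / (1 - θ)) z := by
  have h2 : 0 < 1 - θ := by linarith
  have h := norm_mul_hk_le hs (θ := 1 - θ) h2 (by linarith) z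
  rw [sub_sub_cancel] at h
  have h3 := hk_mul_exp_le (div_pos hs h0) h0 h1 a z
  have h4 : s ^ (-(1 / 2 : ℝ)) = √s / s := by
    rw [Real.rpow_neg hs.le, ← Real.sqrt_eq_rpow, Real.sqrt_div_self']
    simp
  have h5 : √(s / (1 - θ)) = √(1 / (1 - θ)) * √s := by
    rw [← Real.sqrt_mul (by positivity)]
    congr 1
    ring
  calc _ = (‖z‖ * hk s z) * Real.exp (a * ‖z‖) / (2 * s) := by ring
    _ ≤ (√(s / (1 - θ)) * θ ^ (-(n / 2 : ℝ)) * hk (s / θ) z) * Real.exp (a * ‖z‖) / (2 * s) := by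
      gcongr
    _ = √(s / (1 - θ)) * θ ^ (-(n / 2 : ℝ)) * (hk (s / θ) z * Real.exp (a * ‖z‖)) / (2 * s) := by
      ring
    _ ≤ √(s / (1 - θ)) * θ ^ (-(n / 2 : ℝ)) * ((1 - θ) ^ (-(n / 2 : ℝ)) *
        Real.exp (a ^ 2 * (s / θ) / θ) * hk (s / θ / (1 - θ)) z) / (2 * s) := by gcongr
    _ = _ := by
      rw [h4, h5, cT, show a ^ 2 * (s / θ) / θ = a ^ 2 / θ ^ 2 * s by field_simp]
      field_simp

theorem exists_theta2 {μ a : ℝ} (hμ : 0 < μ) (h : a ^ 2 < μ) :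
    ∃ θ : ℝ, 0 < θ ∧ θ < 1 ∧ a ^ 2 / θ ^ 2 < μ := by
  obtain ⟨θ, h0, h1, h2⟩ := exists_theta hμ h
  refine ⟨(1 + θ) / 2, by linarith, by linarith, lt_of_le_of_lt ?_ h2⟩
  exact div_le_div_of_nonneg_left (sq_nonneg _) h0 (by nlinarith [sq_nonneg (1 - θ)])

theorem norm_hD_int_le' {s θ a M : ℝ} (hs : 0 < s) (h0 : 0 < θ) (h1 : θ < 1) {f : EE n → ℝ}
    (h : Gr a M f) (z : EE n) : ‖(hk s z / (2 * s) * f z) • innerSL ℝ z‖ ≤
      M * cT n θ * (s ^ (-(1 / 2 : ℝ)) * Real.exp (a ^ 2 / θ ^ 2 * s)) * hk (s / θ / (1 - θ)) z := by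
  have h2 : 0 ≤ hk s z / (2 * s) := div_nonneg (hk_pos hs z).le (by linarith)
  rw [norm_smul, innerSL_apply_norm, norm_mul, Real.norm_eq_abs, abs_of_nonneg h2,
    Real.norm_eq_abs]
  calc _ ≤ hk s z / (2 * s) * (M * Real.exp (a * ‖z‖)) * ‖z‖ := by gcongr; exact h z
    _ = M * (hk s z / (2 * s) * ‖z‖ * Real.exp (a * ‖z‖)) := by ring
    _ ≤ M * _ := mul_le_mul_of_nonneg_left (hk_div_norm_exp_le hs h0 h1 a z) h.nonneg
    _ = _ := by ring





theorem e_bound {μ θ a M s : ℝ} : Real.exp (-μ * s) *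
    (M * cT n θ * (s ^ (-(1 / 2 : ℝ)) * Real.exp (a ^ 2 / θ ^ 2 * s))) =
    M * cT n θ * (Real.exp (-(μ - a ^ 2 / θ ^ 2) * s) * s ^ (-(1 / 2 : ℝ))) := by
  rw [show -(μ - a ^ 2 / θ ^ 2) * s = -μ * s + a ^ 2 / θ ^ 2 * s by ring, Real.exp_add]
  ring

theorem prod_hD_bound {μ θ a M : ℝ} (h0 : 0 < θ) (h1 : θ < 1) {f : EE n → ℝ} (h : Gr a M f)
    {s : ℝ} (hs : 0 < s) (z : EE n) :
    ‖(Real.exp (-μ * s) * (hk s z / (2 * s)) * f z) • innerSL ℝ z‖ ≤
      M * cT n θ * (Real.exp (-(μ - a ^ 2 / θ ^ 2) * s) * s ^ (-(1 / 2 : ℝ))) *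
        hk (s / θ / (1 - θ)) z := by
  rw [mul_assoc, mul_smul, norm_smul, Real.norm_eq_abs, abs_of_pos (Real.exp_pos _), ← e_bound,
    mul_assoc (Real.exp _)]
  exact mul_le_mul_of_nonneg_left (norm_hD_int_le' hs h0 h1 h z) (Real.exp_pos _).le

theorem int_prod_hD_bound {μ θ a M : ℝ} (h0 : 0 < θ) (h1 : θ < 1) {f : EE n → ℝ} (h : Gr a M f)
    {s : ℝ} (hs : 0 < s) :
    ∫ z, ‖(Real.exp (-μ * s) * (hk s z / (2 * s)) * f z) • innerSL ℝ z‖ ≤
      M * cT n θ * (Real.exp (-(μ - a ^ 2 / θ ^ 2) * s) * s ^ (-(1 / 2 : ℝ))) := by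
  have h2 : 0 < s / θ / (1 - θ) := div_pos (div_pos hs h0) (by linarith)
  refine (integral_mono_of_nonneg (Eventually.of_forall fun z => norm_nonneg _)
    ((integrable_hk h2).const_mul _) (Eventually.of_forall (prod_hD_bound h0 h1 h hs))).trans
    (le_of_eq ?_)
  rw [integral_const_mul, integral_hk h2, mul_one]

theorem integrable_prod_hD' {μ a M : ℝ} (hμ : 0 < μ) (ha : a ^ 2 < μ) {f : EE n → ℝ}
    (hf : AEStronglyMeasurable f volume) (h : Gr a M f) :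
    Integrable (fun p : ℝ × EE n =>
      (Real.exp (-μ * p.1) * (hk p.1 p.2 / (2 * p.1)) * f p.2) • innerSL ℝ p.2)
      ((volume.restrict (Ioi (0 : ℝ))).prod volume) := by
  obtain ⟨θ, h0, h1, hκ⟩ := exists_theta2 hμ ha
  have hm : AEStronglyMeasurable (fun p : ℝ × EE n =>
      (Real.exp (-μ * p.1) * (hk p.1 p.2 / (2 * p.1)) * f p.2) • innerSL ℝ p.2)
      ((volume.restrict (Ioi (0 : ℝ))).prod volume) :=
    ((measurable_e1 μ).aestronglyMeasurable.mul hf.comp_snd).smul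
      (by fun_prop : Continuous fun p : ℝ × EE n => innerSL ℝ p.2).aestronglyMeasurable
  rw [integrable_prod_iff hm]
  constructor
  · filter_upwards [ae_restrict_mem measurableSet_Ioi, hm.prodMk_left] with s hs hs'
    exact Integrable.mono' ((integrable_hk (div_pos (div_pos hs h0) (by linarith))).const_mul _) hs'
      (Eventually.of_forall (prod_hD_bound h0 h1 h hs))
  · refine Integrable.mono' ((integrableOn_exp_rpow (sub_pos.2 hκ)).const_mul (M * cT n θ))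
      hm.norm.integral_prod_right' ?_
    filter_upwards [ae_restrict_mem measurableSet_Ioi] with s hs
    rw [Real.norm_eq_abs, abs_of_nonneg (integral_nonneg fun _ => norm_nonneg _)]
    exact int_prod_hD_bound h0 h1 h hs

theorem integrable_G1_smul' {μ a M : ℝ} (hμ : 0 < μ) (ha : a ^ 2 < μ) {f : EE n → ℝ}
    (hf : AEStronglyMeasurable f volume) (h : Gr a M f) :
    Integrable fun z => (G1 μ z * f z) • innerSL ℝ z := by
  simp_rw [G1_smul_eq]
  exact (integrable_prod_hD' hμ ha hf h).integral_prod_right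

theorem gr_exp (a : ℝ) : Gr a 1 fun z : EE n => Real.exp (a * ‖z‖) := fun z => by
  rw [abs_of_pos (Real.exp_pos _), one_mul]

theorem norm_G1_exp (μ a : ℝ) (z : EE n) : ‖(G1 μ z * Real.exp (a * ‖z‖)) • innerSL ℝ z‖ =
    G1 μ z * ‖z‖ * Real.exp (a * ‖z‖) := by
  rw [norm_smul, innerSL_apply_norm, Real.norm_eq_abs,
    abs_of_nonneg (mul_nonneg (G1_nonneg μ z) (Real.exp_pos _).le)]
  ring

/-- exponential moments of `|∇ G_μ| = G1 μ z ‖z‖` -/
theorem integrable_G1_exp {μ a : ℝ} (hμ : 0 < μ) (ha : a ^ 2 < μ) :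
    Integrable fun z : EE n => G1 μ z * ‖z‖ * Real.exp (a * ‖z‖) := by
  have := (integrable_G1_smul' (n := n) hμ ha (by fun_prop) (gr_exp a)).norm
  simpa only [norm_G1_exp] using this



/-- the constant in `∫ |∇ G_μ| e^{a|z|} ≤ cG / √μ` -/
def cG (n : ℕ) : ℝ := cT n (1 / 2) * (√Real.pi * √2)
















theorem abs_pdv_le_fderiv (w : EE n → ℝ) (i : Fin n) (x : EE n) : |pdv i w x| ≤ ‖fderiv ℝ w x‖ := by
  have := (fderiv ℝ w x).le_opNorm (ev i)
  simpa [pdv] using this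

end

end Crest.Agent.N067.Ker
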