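import Crest.Agent.N067.A.Ball
import Crest.Agent.N067.A.RegS
import Crest.Agent.N067.A.Modica

-- ▼ part N067/A/Lim
section

/-!
# Row 67 basics: smooth Arzelà-Ascoli, compactness of the family of solutions (helper88)

The Arzelà-Ascoli part is a copy of `NLib/Ell/Arzela` (light imports).
-/

set_option autoImplicit false

open Laplacian InnerProductSpace Topology Filter Set Metric
open scoped RealInnerProductSpace Gradient ContDiff

namespace Crest.Agent.N067

open Crest.Agent.R077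

namespace AA

section

variable {X F : Type} [TopologicalSpace X] [NormedAddCommGroup F]

/-- continuous maps with a pointwise bound and a modulus of continuity -/
def aaSet (B : X → ℝ) (w : X → X → ℝ) : Set C(X, F) :=
  {g | (∀ x, ‖g x‖ ≤ B x) ∧ ∀ x y, ‖g x - g y‖ ≤ w x y}

theorem continuous_of_modulus {w : X → X → ℝ} (hw : ∀ x, Tendsto (w x) (𝓝 x) (𝓝 0))
    {g : X → F} (hg : ∀ x y, ‖g x - g y‖ ≤ w x y) : Continuous g := by
  rw [continuous_iff_continuousAt]
  intro x
  rw [ContinuousAt, tendsto_iff_norm_sub_tendsto_zero]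
  refine squeeze_zero (fun _ => norm_nonneg _) (fun y => ?_) (hw x)
  rw [norm_sub_rev]; exact hg x y

theorem isCompact_aaSet [ProperSpace F] (B : X → ℝ) {w : X → X → ℝ}
    (hw : ∀ x, Tendsto (w x) (𝓝 x) (𝓝 0)) : IsCompact (aaSet (F := F) B w) := by
  refine ArzelaAscoli.isCompact_of_equicontinuous _ ?_ ?_
  · have e : ContinuousMap.toFun '' aaSet (F := F) B w =
        (Set.pi univ fun x => closedBall (0 : F) (B x)) ∩
          ⋂ x, ⋂ y, {g : X → F | ‖g x - g y‖ ≤ w x y} := by
      ext g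
      simp only [mem_image, mem_inter_iff, Set.mem_pi, mem_univ, true_imp_iff, mem_closedBall,
        dist_zero_right, mem_iInter, mem_setOf_eq]
      constructor
      · rintro ⟨h, hh, rfl⟩
        exact hh
      · rintro ⟨h1, h2⟩
        exact ⟨⟨g, continuous_of_modulus hw h2⟩, ⟨h1, h2⟩, rfl⟩
    rw [e]
    refine (isCompact_univ_pi fun x => isCompact_closedBall _ _).inter_right ?_
    refine isClosed_iInter fun x => isClosed_iInter fun y => isClosed_le ?_ continuous_const
    exact ((continuous_apply x).sub (continuous_apply y)).norm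
  · intro x
    rw [Metric.equicontinuousAt_iff_right]
    intro ε hε
    filter_upwards [(hw x).eventually (gt_mem_nhds hε)] with y hy g
    rw [dist_eq_norm]
    exact (g.2.2 x y).trans_lt hy

end

/-- Arzelà-Ascoli for countably many sequences at once. -/
theorem aa_seq {X : Type} [TopologicalSpace X] [LocallyCompactSpace X] [SecondCountableTopology X]
    {J : Type} [Countable J] {F : J → Type} [∀ j, NormedAddCommGroup (F j)]
    [∀ j, ProperSpace (F j)] (g : ∀ j, ℕ → X → F j) (B : J → X → ℝ) (w : J → X → X → ℝ)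
    (hw : ∀ j x, Tendsto (w j x) (𝓝 x) (𝓝 0)) (hB : ∀ j k x, ‖g j k x‖ ≤ B j x)
    (hg : ∀ j k x y, ‖g j k x - g j k y‖ ≤ w j x y) :
    ∃ (ψ : ℕ → ℕ) (G : ∀ j, X → F j), StrictMono ψ ∧ (∀ j, Continuous (G j)) ∧
      ∀ j, TendstoLocallyUniformly (fun k => g j (ψ k)) (G j) atTop := by
  have hc : IsCompact (Set.pi univ fun j => aaSet (F := F j) (B j) (w j)) :=
    isCompact_univ_pi fun j => isCompact_aaSet _ (hw j)
  let u : ℕ → ∀ j, C(X, F j) := fun k j => ⟨g j k, continuous_of_modulus (hw j) (hg j k)⟩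
  obtain ⟨G, -, ψ, hψ, hl⟩ := hc.tendsto_subseq (x := u) fun k j _ => ⟨hB j k, hg j k⟩
  refine ⟨ψ, fun j => G j, hψ, fun j => (G j).continuous, fun j => ?_⟩
  have h1 : Tendsto (fun k => u (ψ k) j) atTop (𝓝 (G j)) :=
    (continuous_apply j).tendsto G |>.comp hl
  exact ContinuousMap.tendsto_iff_tendstoLocallyUniformly.1 h1

theorem tlu_tendsto {ι X F : Type} [TopologicalSpace X] [UniformSpace F] {g : ι → X → F}
    {G : X → F} {l : Filter ι} (h : TendstoLocallyUniformly g G l) (x : X) :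
    Tendsto (fun k => g k x) l (𝓝 (G x)) :=
  (tendstoLocallyUniformlyOn_univ.2 h).tendsto_at (mem_univ x)

theorem hasFDerivAt_of_tlu {X F : Type} [NormedAddCommGroup X] [NormedSpace ℝ X]
    [NormedAddCommGroup F] [NormedSpace ℝ F] {g : ℕ → X → F} {G : X → F} {G' : X → X →L[ℝ] F}
    (hd : ∀ k, Differentiable ℝ (g k)) (h : ∀ x, Tendsto (fun k => g k x) atTop (𝓝 (G x)))
    (h' : TendstoLocallyUniformly (fun k => fderiv ℝ (g k)) G' atTop) (x : X) :
    HasFDerivAt G (G' x) x :=
  hasFDerivAt_of_tendstoLocallyUniformlyOn isOpen_univ (tendstoLocallyUniformlyOn_univ.2 h')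
    (fun k y _ => (hd k y).hasFDerivAt) (fun y _ => h y) (mem_univ x)

theorem finite_cml (n j : ℕ) (F : Type) [NormedAddCommGroup F] [NormedSpace ℝ F]
    [FiniteDimensional ℝ F] : FiniteDimensional ℝ (EE n [×j]→L[ℝ] F) := by
  induction j with
  | zero =>
    exact (continuousMultilinearCurryFin0 ℝ (EE n) F).symm.toLinearEquiv.finiteDimensional
  | succ j ih =>
    exact (continuousMultilinearCurryLeftEquiv ℝ (fun _ : Fin (j + 1) => EE n)
      F).symm.toLinearEquiv.finiteDimensional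

/-- smooth Arzelà-Ascoli -/
theorem arzela {n : ℕ} {F : Type} [NormedAddCommGroup F] [NormedSpace ℝ F]
    [FiniteDimensional ℝ F] (f : ℕ → EE n → F) (hf : ∀ k, ContDiff ℝ ∞ (f k))
    (hb : ∀ (j : ℕ) (R : ℝ), ∃ C : ℝ, ∀ k, ∀ x ∈ ball (0 : EE n) R,
      ‖iteratedFDeriv ℝ j (f k) x‖ ≤ C) :
    ∃ (ψ : ℕ → ℕ) (g : EE n → F), StrictMono ψ ∧ ContDiff ℝ ∞ g ∧ ∀ j : ℕ,
      TendstoLocallyUniformly (fun k => iteratedFDeriv ℝ j (f (ψ k))) (iteratedFDeriv ℝ j g)
        atTop := by
  choose C hC using hb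
  haveI : ∀ j, FiniteDimensional ℝ (EE n [×j]→L[ℝ] F) := fun j => finite_cml n j F
  haveI : ∀ j, ProperSpace (EE n [×j]→L[ℝ] F) := fun j => FiniteDimensional.proper_real _
  have hd : ∀ j k, Differentiable ℝ (iteratedFDeriv ℝ j (f k)) := fun j k =>
    (hf k).differentiable_iteratedFDeriv (by exact_mod_cast ENat.coe_lt_top j)
  have hB : ∀ j k x, ‖iteratedFDeriv ℝ j (f k) x‖ ≤ C j (‖x‖ + 1) := fun j k x =>
    hC j _ k x (by simp)
  obtain ⟨ψ, G, hψ, hG, hl⟩ := aa_seq (J := ℕ) (F := fun j => EE n [×j]→L[ℝ] F)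
    (fun j k => iteratedFDeriv ℝ j (f k)) (fun j x => C j (‖x‖ + 1))
    (fun j x y => if ‖x - y‖ < 1 then C (j + 1) (‖x‖ + 1) * ‖x - y‖
      else C j (‖x‖ + 1) + C j (‖y‖ + 1))
    (fun j x => by
      have h2 : Continuous fun y : EE n => C (j + 1) (‖x‖ + 1) * ‖x - y‖ := by fun_prop
      have h3 : Tendsto (fun y : EE n => C (j + 1) (‖x‖ + 1) * ‖x - y‖) (𝓝 x) (𝓝 0) := by
        simpa using h2.tendsto x
      refine h3.congr' ?_
      filter_upwards [ball_mem_nhds x one_pos] with y hy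
      rw [if_pos (by rwa [mem_ball', dist_eq_norm] at hy)])
    hB
    (fun j k x y => by
      split_ifs with h
      · refine (convex_ball (0 : EE n) (‖x‖ + 1)).norm_image_sub_le_of_norm_fderiv_le
          (fun z _ => hd j k z) (fun z hz => ?_) ?_ (by simp)
        · rw [norm_fderiv_iteratedFDeriv]; exact hC _ _ k z hz
        · rw [mem_ball_zero_iff]
          have := norm_sub_norm_le y x
          rw [norm_sub_rev] at this
          linarith
      · exact (norm_sub_le _ _).trans (add_le_add (hB j k x) (hB j k y)))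
  have hT : HasFTaylorSeriesUpTo ∞ (fun x => (G 0 x).curry0) (fun x j => G j x) := by
    refine ⟨fun _ => rfl, fun m _ x => ?_, fun m _ => hG m⟩
    refine hasFDerivAt_of_tlu (g := fun k => iteratedFDeriv ℝ m (f (ψ k)))
      (G' := fun x => (G (m + 1) x).curryLeft) (fun k => hd m _) (tlu_tendsto (hl m)) ?_ x
    exact (continuousMultilinearCurryLeftEquiv ℝ (fun _ : Fin (m + 1) => EE n)
      F).isometry.uniformContinuous.comp_tendstoLocallyUniformly (hl (m + 1))
  refine ⟨ψ, fun x => (G 0 x).curry0, hψ, hT.contDiff, fun j => ?_⟩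
  have e : iteratedFDeriv ℝ j (fun x => (G 0 x).curry0) = G j :=
    funext fun x => (hT.eq_iteratedFDeriv (by exact_mod_cast le_top) x).symm
  rw [e]
  exact hl j

end AA

variable {n : ℕ}

/-- local uniform convergence of all derivatives -/
def CLim {ι : Type} (l : Filter ι) (f : ι → EE n → ℝ) (g : EE n → ℝ) : Prop :=
  ∀ k : ℕ, TendstoLocallyUniformly (fun j => iteratedFDeriv ℝ k (f j)) (iteratedFDeriv ℝ k g) l

section conv

variable {ι : Type} {l : Filter ι} {f : ι → EE n → ℝ} {g : EE n → ℝ}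

theorem tlu_apply {k : ℕ}
    (h : TendstoLocallyUniformly (fun j => iteratedFDeriv ℝ k (f j)) (iteratedFDeriv ℝ k g) l)
    (m : Fin k → EE n) : TendstoLocallyUniformly (fun j x => iteratedFDeriv ℝ k (f j) x m)
      (fun x => iteratedFDeriv ℝ k g x m) l :=
  (ContinuousMultilinearMap.apply ℝ (fun _ : Fin k => EE n) ℝ
    m).uniformContinuous.comp_tendstoLocallyUniformly h

theorem tlu_val
    (h : TendstoLocallyUniformly (fun j => iteratedFDeriv ℝ 0 (f j)) (iteratedFDeriv ℝ 0 g) l) :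
    TendstoLocallyUniformly f g l := by
  simpa using tlu_apply h ![]

theorem tlu_fderiv
    (h : TendstoLocallyUniformly (fun j => iteratedFDeriv ℝ 1 (f j)) (iteratedFDeriv ℝ 1 g) l) :
    TendstoLocallyUniformly (fun j => fderiv ℝ (f j)) (fderiv ℝ g) l := by
  have h1 := (continuousMultilinearCurryFin1 ℝ (EE n)
    ℝ).isometry.uniformContinuous.comp_tendstoLocallyUniformly h
  have e : ∀ u : EE n → ℝ,
      (continuousMultilinearCurryFin1 ℝ (EE n) ℝ) ∘ iteratedFDeriv ℝ 1 u = fderiv ℝ u := by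
    intro u; funext x; ext y; simp
  simpa only [e] using h1

theorem tlu_grad
    (h : TendstoLocallyUniformly (fun j => iteratedFDeriv ℝ 1 (f j)) (iteratedFDeriv ℝ 1 g) l) :
    TendstoLocallyUniformly (fun j => ∇ (f j)) (∇ g) l :=
  (toDual ℝ (EE n)).symm.isometry.uniformContinuous.comp_tendstoLocallyUniformly (tlu_fderiv h)


theorem tlu_lap
    (h : TendstoLocallyUniformly (fun j => iteratedFDeriv ℝ 2 (f j)) (iteratedFDeriv ℝ 2 g) l) :
    TendstoLocallyUniformly (fun j => Δ (f j)) (Δ g) l := by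
  simp only [laplacian_eq_iteratedFDeriv_orthonormalBasis _ (EuclideanSpace.basisFun (Fin n) ℝ)]
  have h1 := (∑ i : Fin n, ContinuousMultilinearMap.apply ℝ (fun _ : Fin 2 => EE n) ℝ
    ![EuclideanSpace.basisFun (Fin n) ℝ i, EuclideanSpace.basisFun (Fin n) ℝ
      i]).uniformContinuous.comp_tendstoLocallyUniformly h
  simpa [Function.comp_def] using h1

theorem CLim.val (h : CLim l f g) : TendstoLocallyUniformly f g l := tlu_val (h 0)

theorem CLim.fderiv (h : CLim l f g) :
    TendstoLocallyUniformly (fun j => fderiv ℝ (f j)) (fderiv ℝ g) l := tlu_fderiv (h 1)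

theorem CLim.grad (h : CLim l f g) : TendstoLocallyUniformly (fun j => ∇ (f j)) (∇ g) l :=
  tlu_grad (h 1)

theorem CLim.lap (h : CLim l f g) : TendstoLocallyUniformly (fun j => Δ (f j)) (Δ g) l :=
  tlu_lap (h 2)

theorem CLim.tendsto (h : CLim l f g) (x : EE n) : Tendsto (fun j => f j x) l (𝓝 (g x)) :=
  AA.tlu_tendsto h.val x

theorem iteratedFDeriv_pdv {u : EE n → ℝ} (hu : ContDiff ℝ ∞ u) (i : Fin n) (k : ℕ) (x : EE n) :
    iteratedFDeriv ℝ k (pdv i u) x = (ContinuousLinearMap.apply ℝ ℝ (ev i)).compContinuousMultilinearMap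
      (continuousMultilinearCurryRightEquiv' ℝ k (EE n) ℝ (iteratedFDeriv ℝ (k + 1) u x)) := by
  have h1 : ContDiff ℝ ∞ (fderiv ℝ u) := hu.fderiv_right (m := ∞) le_rfl
  have h2 := (ContinuousLinearMap.apply ℝ ℝ (ev i)).iteratedFDeriv_comp_left (x := x)
    h1.contDiffAt (i := k) (by exact_mod_cast le_top)
  rw [iteratedFDeriv_succ_eq_comp_right]
  simp only [Function.comp_apply, LinearIsometryEquiv.apply_symm_apply]
  exact h2

theorem CLim.pdv (h : CLim l f g) (hf : ∀ j, ContDiff ℝ ∞ (f j)) (hg : ContDiff ℝ ∞ g)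
    (i : Fin n) : CLim l (fun j => pdv i (f j)) (pdv i g) := by
  intro k
  have h1 := (ContinuousLinearMap.compContinuousMultilinearMapL ℝ (fun _ : Fin k => EE n)
    (EE n →L[ℝ] ℝ) ℝ (ContinuousLinearMap.apply ℝ ℝ
      (ev i))).uniformContinuous.comp_tendstoLocallyUniformly
    ((continuousMultilinearCurryRightEquiv' ℝ k (EE n)
      ℝ).isometry.uniformContinuous.comp_tendstoLocallyUniformly (h (k + 1)))
  have e : ∀ u : EE n → ℝ, ContDiff ℝ ∞ u → iteratedFDeriv ℝ k (R077.pdv i u) = fun x =>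
      (ContinuousLinearMap.apply ℝ ℝ (ev i)).compContinuousMultilinearMap
      (continuousMultilinearCurryRightEquiv' ℝ k (EE n) ℝ (iteratedFDeriv ℝ (k + 1) u x)) :=
    fun u hu => funext (iteratedFDeriv_pdv hu i k)
  simp only [e _ (hf _), e _ hg]
  exact h1

theorem CLim.isSol [l.NeBot] (h : CLim l f g) (hg : ContDiff ℝ 2 g) (hf : ∀ j, IsSol (f j)) :
    IsSol g := by
  refine ⟨hg, fun x => le_of_tendsto' (h.tendsto x).abs fun j => (hf j).bd x, fun x => ?_⟩
  refine tendsto_nhds_unique (AA.tlu_tendsto h.lap x) ?_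
  simp only [fun j => (hf j).eq x]
  exact ((h.tendsto x).pow 3).sub (h.tendsto x)

end conv

/-- compactness of the family of solutions in `C^∞_loc` -/
theorem lim_all_of (hR : RegStmt) (v : ℕ → EE n → ℝ) (hv : ∀ j, IsSol (v j)) :
    ∃ (w : EE n → ℝ) (φ : ℕ → ℕ), StrictMono φ ∧ IsSol w ∧ CLim atTop (fun j => v (φ j)) w := by
  choose C hC using hR n
  obtain ⟨φ, w, hφ, hw, h⟩ := AA.arzela v (fun j => (hC 0 _ (hv j)).1)
    fun k _ => ⟨C k, fun j x _ => (hC k _ (hv j)).2 x⟩
  exact ⟨w, φ, hφ, CLim.isSol h (contDiff_infty.1 hw 2) fun j => hv _, h⟩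

theorem lim_of (hR : RegStmt) : LimStmt := by
  intro n K v hv
  obtain ⟨w, φ, hφ, hw, h⟩ := lim_all_of hR v hv
  exact ⟨w, φ, hφ, hw, fun k _ => h k⟩


theorem IsSol.shift {v : EE n → ℝ} (h : IsSol v) (x : EE n) : IsSol fun y => v (x + y) := by
  refine ⟨h.c2.comp (contDiff_const.add contDiff_id), fun y => h.bd _, fun y => ?_⟩
  rw [← h.eq, laplacian_eq_iteratedFDeriv_orthonormalBasis _ (EuclideanSpace.basisFun (Fin n) ℝ),
    laplacian_eq_iteratedFDeriv_orthonormalBasis _ (EuclideanSpace.basisFun (Fin n) ℝ)]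
  simp only [iteratedFDeriv_comp_add_left]

theorem Sol.shift {v : EE n → ℝ} (h : Sol v) (x : EE n) : Sol fun y => v (x + y) :=
  ⟨h.sm.comp (contDiff_const.add contDiff_id), fun _ => h.lt _, (h.isSol.shift x).eq⟩

end Crest.Agent.N067
end

-- ▼ part N067/A/LimS

/-!
# Row 67 basics: unconditional `dich`, `lim`, and limits of `Sol` (helper88)
-/

set_option autoImplicit false

open Laplacian InnerProductSpace Topology Filter Set Metric
open scoped RealInnerProductSpace Gradient ContDiff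

namespace Crest.Agent.N067

open Crest.Agent.R077

variable {n : ℕ}

theorem dich : DichStmt := dich_of reg

theorem lim : LimStmt := lim_of reg



theorem IsSol.sol {v : EE n → ℝ} (h : IsSol v) {x : EE n} (hx : |v x| < 1) : Sol v := by
  rcases dich n v h with h1 | h1 | h1
  · simp [h1 x] at hx
  · simp [h1 x] at hx
  · exact h1


end Crest.Agent.N067
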