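import Crest.Agent.N067.A.PM
import Crest.Agent.N067.A.LimS
import Crest.Agent.N067.A.Ball
import Crest.Agent.N067.A.RegS
import Crest.Agent.N067.A.Modica
import Crest.Agent.N067.A.DReg
import Crest.Agent.N067.A.Ker5

/-! Row 67, basics: unconditional forms (helper43). One import for the whole block. -/

set_option autoImplicit false

open Filter Topology

namespace Crest.Agent.N067

open Crest.Agent.R077

theorem pm : PMStmt := pm_of reg lim



end Crest.Agent.N067
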