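import Crest.Agent.R077.Green

/-!
# Row 67 (De Giorgi, S0089 + S0090): frozen definitions of the BASICS block (helper47)

Generic dimension `n`, `EE n = EuclideanSpace ℝ (Fin n)`, partial derivatives `pdv` of `R077/Green`.
`d = √2 artanh v`, `ψ = 1 - v²`, `t = 1 - |∇d|²`, `q = ψ t`, `B = Hess d`.
-/

set_option autoImplicit false

open MeasureTheory Laplacian InnerProductSpace Topology Filter Set Metric
open scoped RealInnerProductSpace ContDiff Gradient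

namespace Crest.Agent.N067

open Crest.Agent.R077

noncomputable section

variable {n : ℕ}

/-- `C²` solutions of Allen-Cahn with values in `[-1,1]` (the hypotheses of S0090). -/
structure IsSol (v : EE n → ℝ) : Prop where
  c2 : ContDiff ℝ 2 v
  bd : ∀ x, |v x| ≤ 1
  eq : ∀ x, (Δ v) x = v x ^ 3 - v x

/-- smooth solutions with values in `(-1,1)` -/
structure Sol (v : EE n → ℝ) : Prop where
  sm : ContDiff ℝ ∞ v
  lt : ∀ x, |v x| < 1
  eq : ∀ x, (Δ v) x = v x ^ 3 - v x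

theorem Sol.isSol {v : EE n → ℝ} (h : Sol v) : IsSol v :=
  ⟨contDiff_infty.1 h.sm 2, fun x => (h.lt x).le, h.eq⟩

/-- stability, verbatim the hypothesis of S0090 -/
def Stable (v : EE n → ℝ) : Prop :=
  ∀ φ : EE n → ℝ, ContDiff ℝ 1 φ → HasCompactSupport φ →
    0 ≤ ∫ x, (‖∇ φ x‖ ^ 2 + (3 * v x ^ 2 - 1) * φ x ^ 2)

/-- `v` is the planar profile in the unit direction `a` -/
def PlanarIn (v : EE n → ℝ) (a : EE n) : Prop :=
  ‖a‖ = 1 ∧ ∃ b : ℝ, ∀ x, v x = Real.tanh ((⟪a, x⟫ - b) / Real.sqrt 2)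

/-- `v` is a planar profile -/
def Planar (v : EE n → ℝ) : Prop := ∃ a, PlanarIn v a

/-- `d = √2 artanh v` -/
def dd (v : EE n → ℝ) (x : EE n) : ℝ := Real.sqrt 2 * Real.artanh (v x)

/-- `ψ = 1 - v²` -/
def psi (v : EE n → ℝ) (x : EE n) : ℝ := 1 - v x ^ 2

/-- `t = 1 - |∇d|²` -/
def tt (v : EE n → ℝ) (x : EE n) : ℝ := 1 - ‖∇ (dd v) x‖ ^ 2

/-- `q = ψ t` -/
def qq (v : EE n → ℝ) (x : EE n) : ℝ := psi v x * tt v x

/-- Hessian entries -/
def hs (f : EE n → ℝ) (i j : Fin n) (x : EE n) : ℝ := pdv i (pdv j f) x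

/-- squared Frobenius norm of the Hessian -/
def hsq (f : EE n → ℝ) (x : EE n) : ℝ := ∑ i, ∑ j, hs f i j x ^ 2

/-- the drift Laplacian `Δ_μ f = Δ f - 2√2 v ⟪∇d, ∇f⟫` of the measure `μ = ψ² dx` -/
def Lm (v f : EE n → ℝ) (x : EE n) : ℝ :=
  (Δ f) x - 2 * Real.sqrt 2 * v x * ⟪∇ (dd v) x, ∇ f x⟫

/-- Allen-Cahn energy density -/
def en (v : EE n → ℝ) (x : EE n) : ℝ := ‖∇ v x‖ ^ 2 / 2 + (1 - v x ^ 2) ^ 2 / 4

/-- `ℝⁿ × ℝ → ℝⁿ⁺¹`, the last coordinate is `s` -/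
def snoc (y : EE n) (s : ℝ) : EE (n + 1) := WithLp.toLp 2 (Fin.snoc (α := fun _ => ℝ) y.ofLp s)

/-- `ℝⁿ⁺¹ → ℝⁿ`, forget the last coordinate -/
def init (x : EE (n + 1)) : EE n := WithLp.toLp 2 (Fin.init (α := fun _ => ℝ) x.ofLp)

/-- monotone in the last variable (the hypothesis of S0089) -/
def MonoLast (u : EE (n + 1) → ℝ) : Prop := ∀ x, 0 < fderiv ℝ u x (ev (Fin.last n))

/-! ### statements of the block -/

/-- REG (helper2): smoothness and universal `C^k` bounds -/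
def RegStmt : Prop := ∀ n k : ℕ, ∃ C : ℝ, ∀ v : EE n → ℝ, IsSol v →
  ContDiff ℝ ∞ v ∧ ∀ x, ‖iteratedFDeriv ℝ k v x‖ ≤ C


/-- DICH (helper88): constant `±1` or strict -/
def DichStmt : Prop := ∀ (n : ℕ) (v : EE n → ℝ), IsSol v →
  (∀ x, v x = 1) ∨ (∀ x, v x = -1) ∨ Sol v

/-- MODICA (helper43) -/
def ModicaStmt : Prop := ∀ (n : ℕ) (v : EE n → ℝ), Sol v → ∀ x, 0 ≤ tt v x

/-- the equations of `d`, `d_i`, `t` (helper43) -/
def DEqStmt : Prop := ∀ (n : ℕ) (v : EE n → ℝ), Sol v → ContDiff ℝ ∞ (dd v) ∧ ∀ x,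
  (Δ (dd v)) x = -Real.sqrt 2 * v x * tt v x ∧
  (∀ i, Lm v (pdv i (dd v)) x = -qq v x * pdv i (dd v) x) ∧
  Lm v (tt v) x / 2 = qq v x * (1 - tt v x) - hsq (dd v) x

/-- ONE-D (helper43): `t(x0) = 0` forces the planar profile -/
def OneDStmt : Prop := ∀ (n : ℕ) (v : EE n → ℝ), Sol v → ∀ x0, tt v x0 = 0 → Planar v

/-- DREG (helper47): universal bounds of all derivatives of `∇d` on the whole space -/
def DRegStmt : Prop := ∀ n k : ℕ, ∃ C : ℝ, ∀ v : EE n → ℝ, Sol v →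
  ∀ x, ‖iteratedFDeriv ℝ (k + 1) (dd v) x‖ ≤ C

/-- DSTAB (helper47): stability in `d`-form, `∫ q w² dμ ≤ ∫ |∇w|² dμ` -/
def DStabStmt : Prop := ∀ (n : ℕ) (v : EE n → ℝ), Sol v → Stable v →
  ∀ w : EE n → ℝ, ContDiff ℝ 1 w → HasCompactSupport w →
    ∫ x, qq v x * w x ^ 2 * psi v x ^ 2 ≤ ∫ x, ‖∇ w x‖ ^ 2 * psi v x ^ 2

/-- BALL (helper88): a positive solution on a big ball is close to `1` at the centre -/
def BallStmt : Prop := ∀ (n : ℕ) (ε : ℝ), 0 < ε → ∃ R : ℝ, 0 < R ∧ ∀ v : EE n → ℝ, IsSol v →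
  ∀ x, (∀ y ∈ ball x R, 0 < v y) → 1 - ε ≤ v x

/-- DECAY (helper88): exponential decay of `1 - v` inside `{v > 0}`, any rate below `√2` -/
def DecayStmt : Prop := ∀ (n : ℕ) (a : ℝ), 0 ≤ a → a < Real.sqrt 2 → ∃ C : ℝ, ∀ v : EE n → ℝ, IsSol v →
  ∀ (x : EE n) (R : ℝ), (∀ y ∈ ball x R, 0 < v y) → 1 - v x ≤ C * Real.exp (-a * R)

/-- LIM (helper88): compactness of the family of solutions in `C^K_loc` -/
def LimStmt : Prop := ∀ (n K : ℕ) (v : ℕ → EE n → ℝ), (∀ j, IsSol (v j)) →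
  ∃ (w : EE n → ℝ) (φ : ℕ → ℕ), StrictMono φ ∧ IsSol w ∧ ∀ k ≤ K,
    TendstoLocallyUniformly (fun j => iteratedFDeriv ℝ k (v (φ j))) (iteratedFDeriv ℝ k w) atTop

/-- (helper47) stability passes to pointwise limits of solutions -/
def StabLimStmt : Prop := ∀ (n : ℕ) (v : ℕ → EE n → ℝ) (w : EE n → ℝ),
  (∀ j, IsSol (v j)) → (∀ j, Stable (v j)) → (∀ x, Tendsto (fun j => v j x) atTop (𝓝 (w x))) →
  Stable w

/-- a monotone solution is stable (helper47) -/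
def MonoStabStmt : Prop := ∀ (n : ℕ) (u : EE (n + 1) → ℝ), IsSol u → MonoLast u → Stable u

/-- PM (helper47): the limits `u^±` at `x_{n+1} → ±∞` are stable solutions in dimension `n` -/
def PMStmt : Prop := ∀ (n : ℕ) (u : EE (n + 1) → ℝ), IsSol u → MonoLast u →
  ∃ up um : EE n → ℝ, IsSol up ∧ Stable up ∧ IsSol um ∧ Stable um ∧
    (∀ y, Tendsto (fun s => u (snoc y s)) atTop (𝓝 (up y))) ∧
    (∀ y, Tendsto (fun s => u (snoc y s)) atBot (𝓝 (um y))) ∧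
    ∀ y s, um y < u (snoc y s) ∧ u (snoc y s) < up y



end

end Crest.Agent.N067
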