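import Crest.Agent.N067.A.Grad
import Crest.Agent.N067.A.SMP

/-!
# Row 67 basics: Harnack inequality for `|Δ w| ≤ B ‖Dw‖ + B w` (helper88)
-/

set_option autoImplicit false

open Laplacian InnerProductSpace Topology Filter Set Metric

namespace Crest.Agent.N067

open Crest.Agent.R077

variable {n : ℕ}

/-- interior gradient estimate with a drift term on a ball of radius `r ≤ 1` -/
theorem grad_drift_r {u : EE n → ℝ} (hu : ContDiff ℝ 2 u) {x : EE n} {r β M G : ℝ} (hr : 0 < r)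
    (hr1 : r ≤ 1) (hβ : 0 ≤ β) (hM : ∀ y ∈ closedBall x r, |u y| ≤ M)
    (hF : ∀ y ∈ closedBall x r, |(Δ u) y| ≤ β * ‖fderiv ℝ u y‖ + G) (hG : 0 ≤ G) :
    r * ‖fderiv ℝ u x‖ ≤ 4 * n * (β + 1) * M + G * r ^ 2 := by
  have hM0 : 0 ≤ M := (abs_nonneg _).trans (hM x (mem_closedBall_self hr.le))
  have cf : Continuous fun y => (r - dist y x) * ‖fderiv ℝ u y‖ :=
    (continuous_const.sub (continuous_id.dist continuous_const)).mul
      (hu.continuous_fderiv (by norm_num)).norm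
  obtain ⟨y, hy, hmax⟩ := (isCompact_closedBall x r).exists_isMaxOn
    ⟨x, mem_closedBall_self hr.le⟩ cf.continuousOn
  set δ := r - dist y x with hδ
  set S := δ * ‖fderiv ℝ u y‖ with hS
  have hle : ∀ z ∈ closedBall x r, (r - dist z x) * ‖fderiv ℝ u z‖ ≤ S := fun z hz => hmax hz
  have hx : r * ‖fderiv ℝ u x‖ ≤ S := by simpa using hle x (mem_closedBall_self hr.le)
  have hδ0 : 0 ≤ δ := by have := mem_closedBall.1 hy; linarith
  have hδr : δ ≤ r := by have := dist_nonneg (x := y) (y := x); linarith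
  have hδ1 : δ ≤ 1 := hδr.trans hr1
  have hS0 : 0 ≤ S := le_trans (by positivity) hx
  refine hx.trans ?_
  rcases hδ0.eq_or_lt with h0 | h0
  · rw [hS, ← h0, zero_mul]; positivity
  set θ := 1 / (2 * (β + 1)) with hθ
  have hθ0 : 0 < θ := by positivity
  have hθ1 : θ ≤ 1 / 2 := by
    rw [hθ]; exact one_div_le_one_div_of_le (by norm_num) (by linarith)
  have hθ2 : θ * (β + 1) = 1 / 2 := by rw [hθ]; field_simp
  have hsub : ∀ z ∈ closedBall y (θ * δ), δ / 2 ≤ r - dist z x := fun z hz => by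
    have h1 := dist_triangle z y x
    have h2 := mem_closedBall.1 hz
    have h3 := mul_le_mul_of_nonneg_right hθ1 hδ0
    linarith
  have hsub' : ∀ z ∈ closedBall y (θ * δ), z ∈ closedBall x r := fun z hz => by
    have := hsub z hz
    rw [mem_closedBall]; linarith
  have hb := brandt hu (x := y) (r := θ * δ) (M := M) (F := β * (2 * S / δ) + G) (by positivity)
    (fun z hz => hM z (hsub' z hz)) fun z hz => (hF z (hsub' z hz)).trans (by
      have h1 := hle z (hsub' z hz)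
      have h2 : δ / 2 * ‖fderiv ℝ u z‖ ≤ S :=
        (mul_le_mul_of_nonneg_right (hsub z hz) (norm_nonneg _)).trans h1
      have h3 : ‖fderiv ℝ u z‖ ≤ 2 * S / δ := by
        rw [le_div_iff₀ h0]; linarith
      gcongr)
  have h4 : S ≤ δ * (n * M / (θ * δ) + (β * (2 * S / δ) + G) * (θ * δ) / 2) :=
    mul_le_mul_of_nonneg_left hb hδ0
  have h5 : δ * (n * M / (θ * δ) + (β * (2 * S / δ) + G) * (θ * δ) / 2)
      = 2 * n * (β + 1) * M + θ * β * δ * S + θ * δ ^ 2 * G / 2 := by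
    rw [hθ]; field_simp; ring
  have h6 : θ * β * δ * S ≤ S / 2 := by
    have h7 : θ * β * δ ≤ θ * β * 1 := mul_le_mul_of_nonneg_left hδ1 (by positivity)
    have : θ * β * δ ≤ 1 / 2 := by linarith
    have := mul_le_mul_of_nonneg_right this hS0
    linarith
  have h7 : θ * δ ^ 2 * G ≤ r ^ 2 * G := by
    refine mul_le_mul_of_nonneg_right ?_ hG
    have h8 := pow_le_pow_left₀ hδ0 hδr 2
    have h9 := mul_le_mul_of_nonneg_right hθ1 (sq_nonneg δ)
    linarith [sq_nonneg δ]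
  linarith

/-- comparison with a strict subsolution on a compact set -/
theorem barrier {w h : EE n → ℝ} {K : Set (EE n)} {B : ℝ} (hK : IsCompact K) (hB : 0 ≤ B)
    (hw : ContinuousOn w K) (hh : ContinuousOn h K)
    (hi : ∀ z ∈ K, w z < h z → K ∈ 𝓝 z ∧ ContDiffAt ℝ 2 w z ∧ ContDiffAt ℝ 2 h z ∧
      (Δ w) z ≤ B * ‖fderiv ℝ w z‖ + B * w z ∧ B * ‖fderiv ℝ h z‖ + B * h z < (Δ h) z) :
    ∀ x ∈ K, h x ≤ w x := by
  intro x hx
  obtain ⟨z, hz, hmin⟩ := hK.exists_isMinOn (f := fun z => w z - h z) ⟨x, hx⟩ (hw.sub hh)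
  by_contra hneg
  have h1 : w z - h z ≤ w x - h x := hmin hx
  have hlt : w z < h z := by linarith [lt_of_not_ge hneg]
  obtain ⟨hn, h2, h3, h4, h5⟩ := hi z hz hlt
  have hm := hmin.isLocalMin hn
  have l1 := laplacian_nonneg_of_isLocalMin (h2.sub h3) hm
  have l2 : (Δ fun z => w z - h z) z = (Δ w) z - (Δ h) z := h2.laplacian_sub h3
  have g1 := hm.hasFDerivAt_eq_zero ((h2.differentiableAt (by simp)).hasFDerivAt.sub
    (h3.differentiableAt (by simp)).hasFDerivAt)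
  rw [sub_eq_zero.1 g1] at h4
  have := mul_le_mul_of_nonneg_left hlt.le hB
  linarith

/-- power barrier: positivity spreads from a small sphere -/
theorem spread {w : EE n → ℝ} {y : EE n} {ρ R B m : ℝ} {q : ℕ} (hρ : 0 < ρ) (hB : 0 ≤ B)
    (hq : 2 * n * q + 2 * q * B * R + B * R ^ 2 < 4 * q * (q + 1)) (hm : 0 ≤ m)
    (hw : ∀ x, ρ ≤ ‖x - y‖ → ‖x - y‖ ≤ R → ContDiffAt ℝ 2 w x)
    (h0 : ∀ x, ρ ≤ ‖x - y‖ → ‖x - y‖ ≤ R → 0 ≤ w x)
    (hL : ∀ x, ρ < ‖x - y‖ → ‖x - y‖ < R → (Δ w) x ≤ B * ‖fderiv ℝ w x‖ + B * w x)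
    (hin : ∀ x, ‖x - y‖ = ρ → m ≤ w x) (x : EE n) (h1 : ρ ≤ ‖x - y‖) (h2 : ‖x - y‖ ≤ R) :
    m * ((ρ ^ 2 / ‖x - y‖ ^ 2) ^ q - (ρ ^ 2 / R ^ 2) ^ q) ≤ w x := by
  let F : ℝ → ℝ := fun s => m * ((ρ ^ 2 / s) ^ q - (ρ ^ 2 / R ^ 2) ^ q)
  have hR : 0 < R := hρ.trans_le (h1.trans h2)
  have hF : ∀ s : ℝ, 0 < s → ContDiffAt ℝ 2 F s := fun s hs =>
    contDiffAt_const.mul (((contDiffAt_const.div contDiffAt_id hs.ne').pow q).sub contDiffAt_const)
  have d0 : ∀ s : ℝ, 0 < s → HasDerivAt (fun s => (ρ ^ 2 / s) ^ q) (-q * (ρ ^ 2 / s) ^ q / s) s := by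
    intro s hs
    refine (((hasDerivAt_const s (ρ ^ 2)).fun_div (hasDerivAt_id s) hs.ne').fun_pow
      q).congr_deriv ?_
    rcases q with _ | q
    · simp
    · simp only [id, Nat.add_sub_cancel, pow_succ (ρ ^ 2 / s) q]; field_simp; ring
  have d1 : ∀ s : ℝ, 0 < s → HasDerivAt F (m * (-q * (ρ ^ 2 / s) ^ q / s)) s := fun s hs =>
    ((d0 s hs).sub_const _).const_mul m
  have d2 : ∀ s : ℝ, 0 < s → deriv (deriv F) s = m * (q * (q + 1) * (ρ ^ 2 / s) ^ q / s ^ 2) := by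
    intro s hs
    have e : deriv F =ᶠ[𝓝 s] fun s => m * (-q * (ρ ^ 2 / s) ^ q / s) := by
      filter_upwards [Ioi_mem_nhds hs] with u hu
      exact (d1 u hu).deriv
    rw [e.deriv_eq]
    refine (((((d0 s hs).const_mul (-(q : ℝ))).fun_div (hasDerivAt_id s) hs.ne').const_mul
      m).congr_deriv ?_).deriv
    simp only [id]; field_simp; ring
  let K : Set (EE n) := closedBall y R ∩ {z | ρ ≤ ‖z - y‖}
  have hK : IsCompact K :=
    (isCompact_closedBall y R).inter_right (isClosed_le continuous_const (by fun_prop))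
  have hp : ∀ z : EE n, ρ ≤ ‖z - y‖ → 0 < ‖z - y‖ ^ 2 := fun z hz => pow_pos (hρ.trans_le hz) 2
  have hh : ∀ z : EE n, ρ ≤ ‖z - y‖ → ContDiffAt ℝ 2 (fun z : EE n => F (‖z - y‖ ^ 2)) z :=
    fun z hz => ContDiffAt.comp (g := F) z (hF _ (hp z hz)) (contDiff_sq y).contDiffAt
  refine barrier (h := fun z => F (‖z - y‖ ^ 2)) hK hB
    (fun z hz => (hw z hz.2 (mem_closedBall_iff_norm.1 hz.1)).continuousAt.continuousWithinAt)
    (fun z hz => (hh z hz.2).continuousAt.continuousWithinAt) (fun z hz hlt => ?_) x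
    ⟨mem_closedBall_iff_norm.2 h2, h1⟩
  obtain ⟨z1, z2⟩ := hz
  rw [mem_closedBall_iff_norm] at z1
  simp only [mem_ofPred_eq] at z2
  have hz0 := h0 z z2 z1
  have hs := hp z z2
  have e1 : 0 < (ρ ^ 2 / R ^ 2) ^ q := by positivity
  have e0 : 0 < (ρ ^ 2 / ‖z - y‖ ^ 2) ^ q := by positivity
  have hFle : F (‖z - y‖ ^ 2) ≤ m * (ρ ^ 2 / ‖z - y‖ ^ 2) ^ q :=
    mul_le_mul_of_nonneg_left (by linarith) hm
  have hm0 : 0 < m := by
    rcases hm.eq_or_lt with h | h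
    · rw [← h] at hFle; linarith
    · exact h
  have z3 : ‖z - y‖ < R := by
    refine lt_of_le_of_ne z1 fun h => ?_
    simp only [F, h, sub_self, mul_zero] at hlt
    linarith
  have z4 : ρ < ‖z - y‖ := by
    refine lt_of_le_of_ne z2 fun h => ?_
    have h3 := hin z h.symm
    rw [← h, div_self (by positivity), one_pow] at hFle
    rw [← h] at hlt
    linarith
  refine ⟨mem_of_superset ((isOpen_lt (by fun_prop) continuous_const).inter
      (isOpen_lt continuous_const (by fun_prop)) |>.mem_nhds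
        (show z ∈ {z : EE n | ‖z - y‖ < R} ∩ {z | ρ < ‖z - y‖} from ⟨z3, z4⟩)) ?_,
    hw z z2 z1, hh z z2, hL z z4 z3, ?_⟩
  · rintro u ⟨u1, u2⟩
    have u3 : ρ < ‖u - y‖ := u2
    exact ⟨mem_closedBall_iff_norm.2 (le_of_lt u1), u3.le⟩
  rw [lap_rad (hF _ hs), d2 _ hs, (d1 _ hs).deriv, (hasFDerivAt_rad (d1 _ hs)).fderiv, norm_smul,
    innerSL_apply_norm, Real.norm_eq_abs]
  set e := m * (ρ ^ 2 / ‖z - y‖ ^ 2) ^ q / ‖z - y‖ ^ 2 with he
  have ep : 0 < e := by positivity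
  have a1 : 2 * (m * (-q * (ρ ^ 2 / ‖z - y‖ ^ 2) ^ q / ‖z - y‖ ^ 2)) = -(2 * q * e) := by
    rw [he]; ring
  have a2 : 4 * ‖z - y‖ ^ 2 * (m * (q * (q + 1) * (ρ ^ 2 / ‖z - y‖ ^ 2) ^ q / (‖z - y‖ ^ 2) ^ 2)) +
      2 * n * (m * (-q * (ρ ^ 2 / ‖z - y‖ ^ 2) ^ q / ‖z - y‖ ^ 2)) =
      (4 * q * (q + 1) - 2 * n * q) * e := by
    rw [he]; field_simp; ring
  have a3 : m * (ρ ^ 2 / ‖z - y‖ ^ 2) ^ q = e * ‖z - y‖ ^ 2 := by
    rw [he, div_mul_cancel₀ _ hs.ne']
  rw [a1, a2, abs_neg, abs_of_nonneg (by positivity)]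
  have q1 := mul_le_mul_of_nonneg_left z1 (by positivity : 0 ≤ 2 * q * B * e)
  have q2 := mul_le_mul_of_nonneg_left (pow_le_pow_left₀ (norm_nonneg _) z1 2)
    (by positivity : 0 ≤ B * e)
  have q3 := mul_le_mul_of_nonneg_left (hFle.trans_eq a3) hB
  have q4 := mul_lt_mul_of_pos_right hq ep
  linarith

theorem exists_q (n : ℕ) {B : ℝ} (hB : 0 ≤ B) : ∃ q : ℕ, 1 ≤ q ∧ ∀ R : ℝ, 0 ≤ R → R ≤ 2 →
    2 * n * q + 2 * q * B * R + B * R ^ 2 < 4 * q * (q + 1) := by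
  obtain ⟨q, hq⟩ := exists_nat_gt (n + 2 * B + 1)
  have hn : (0 : ℝ) ≤ n := n.cast_nonneg
  have h1 : (1 : ℝ) ≤ q := by linarith
  refine ⟨q, by exact_mod_cast h1, fun R h0 h2 => ?_⟩
  have a1 := mul_le_mul_of_nonneg_left h2 (by positivity : 0 ≤ 2 * q * B)
  have a2 := mul_le_mul_of_nonneg_left (pow_le_pow_left₀ h0 h2 2) hB
  have a3 := mul_le_mul_of_nonneg_left h1 hB
  have a4 := mul_le_mul_of_nonneg_left hq.le (by positivity : (0 : ℝ) ≤ q)
  have a5 : 0 ≤ (q : ℝ) * n := by positivity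
  linarith

/-- HARNACK inequality on balls of radius `r ≤ 1` -/
theorem harnack (n : ℕ) {B : ℝ} (hB : 0 ≤ B) : ∃ C : ℝ, 1 ≤ C ∧ ∀ (w : EE n → ℝ) (x : EE n) (r : ℝ),
    0 < r → r ≤ 1 → ContDiff ℝ 2 w → (∀ z ∈ closedBall x (3 * r), 0 ≤ w z) →
    (∀ z ∈ closedBall x (3 * r), |(Δ w) z| ≤ B * ‖fderiv ℝ w z‖ + B * w z) →
    ∀ y ∈ closedBall x (r / 2), w y ≤ C * w x := by
  obtain ⟨q, hq1, hq⟩ := exists_q n hB
  set K : ℝ := (16 * n * (B + 1) + B) * 4 ^ q + 2 with hK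
  have hK2 : 2 ≤ K := by
    have : 0 ≤ (16 * n * (B + 1) + B) * 4 ^ q := by positivity
    linarith
  set θ : ℝ := 1 / (2 * K) with hθ
  have hθ0 : 0 < θ := by positivity
  have hθ1 : θ ≤ 1 / 4 := one_div_le_one_div_of_le (by norm_num) (by linarith)
  have hθK : θ * K = 1 / 2 := by rw [hθ]; field_simp
  have hθq : 0 < (θ ^ 2) ^ q := by positivity
  have hθq1 : (θ ^ 2) ^ q ≤ 1 := pow_le_one₀ (by positivity) (by nlinarith)
  have h4q : (1 : ℝ) ≤ 4 ^ q := one_le_pow₀ (by norm_num)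
  refine ⟨4 * 4 ^ q / (θ ^ 2) ^ q, by rw [le_div_iff₀ hθq]; linarith,
    fun w x r hr hr1 hw h0 hL y hy => ?_⟩
  have cf : Continuous fun z => ((r - dist z x) ^ 2) ^ q * w z :=
    (((continuous_const.sub (continuous_id.dist continuous_const)).pow 2).pow q).mul hw.continuous
  obtain ⟨y0, hy0, hmax⟩ := (isCompact_closedBall x r).exists_isMaxOn
    ⟨x, mem_closedBall_self hr.le⟩ cf.continuousOn
  set δ := r - dist y0 x with hδ
  have hle : ∀ z ∈ closedBall x r, ((r - dist z x) ^ 2) ^ q * w z ≤ (δ ^ 2) ^ q * w y0 :=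
    fun z hz => hmax hz
  have hd0 := mem_closedBall.1 hy0
  have hδ0 : 0 ≤ δ := by linarith
  have hδr : δ ≤ r := by have := dist_nonneg (x := y0) (y := x); linarith
  have hwx := h0 x (mem_closedBall_self (by positivity))
  have hb3 : ∀ z ∈ closedBall y0 (2 * r), z ∈ closedBall x (3 * r) := fun z hz => by
    have h1 := dist_triangle z y0 x
    have h2 := mem_closedBall.1 hz
    rw [mem_closedBall]; linarith
  have hw0 := h0 y0 (hb3 y0 (mem_closedBall_self (by positivity)))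
  have hlow : ∀ (a : ℝ) (z : EE n), 0 ≤ a → a / 2 ≤ r - dist z x →
      (a ^ 2) ^ q * w z ≤ 4 ^ q * ((δ ^ 2) ^ q * w y0) := by
    intro a z ha hz
    have hz1 : z ∈ closedBall x r := by rw [mem_closedBall]; linarith
    have h1 := hle z hz1
    have h2 := h0 z (closedBall_subset_closedBall (by linarith) hz1)
    have h3 : (a ^ 2) ^ q ≤ 4 ^ q * ((r - dist z x) ^ 2) ^ q := by
      rw [← mul_pow]
      refine pow_le_pow_left₀ (sq_nonneg _) ?_ q
      have := pow_le_pow_left₀ (by positivity) hz 2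
      linarith
    have h4 := mul_le_mul_of_nonneg_right h3 h2
    have h5 := mul_le_mul_of_nonneg_left h1 (by positivity : (0 : ℝ) ≤ 4 ^ q)
    linarith
  have hy1 := hlow r y hr.le (by linarith [mem_closedBall.1 hy])
  have hrq : 0 < (r ^ 2) ^ q := by positivity
  suffices H : (θ ^ 2) ^ q * ((δ ^ 2) ^ q * w y0) ≤ 4 * ((r ^ 2) ^ q * w x) by
    rw [div_mul_eq_mul_div, le_div_iff₀ hθq]
    refine le_of_mul_le_mul_left ?_ hrq
    have h1 := mul_le_mul_of_nonneg_left hy1 hθq.le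
    have h2 := mul_le_mul_of_nonneg_left H (by positivity : (0 : ℝ) ≤ 4 ^ q)
    linarith
  rcases hδ0.eq_or_lt with hδp | hδp
  · rw [← hδp, zero_pow two_ne_zero, zero_pow (by omega), zero_mul, mul_zero]; positivity
  have hδq : 0 < (δ ^ 2) ^ q := by positivity
  have hup : ∀ z ∈ closedBall y0 (δ / 2), w z ≤ 4 ^ q * w y0 := fun z hz => by
    have h1 := dist_triangle z y0 x
    have h2 := mem_closedBall.1 hz
    have h3 := hlow δ z hδ0 (by linarith)
    refine le_of_mul_le_mul_left ?_ hδq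
    linarith
  have hgrad : ∀ z ∈ closedBall y0 (δ / 4), ‖fderiv ℝ w z‖ ≤ K * w y0 / δ := fun z hz => by
    have hs : ∀ u ∈ closedBall z (δ / 4), u ∈ closedBall y0 (δ / 2) := fun u hu => by
      have h1 := dist_triangle u z y0
      have h2 := mem_closedBall.1 hz
      have h3 := mem_closedBall.1 hu
      rw [mem_closedBall]; linarith
    have hs' : ∀ u ∈ closedBall z (δ / 4), u ∈ closedBall x (3 * r) := fun u hu =>
      hb3 u (closedBall_subset_closedBall (by linarith) (hs u hu))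
    have h1 := grad_drift_r hw (x := z) (r := δ / 4) (β := B) (M := 4 ^ q * w y0)
      (G := B * (4 ^ q * w y0)) (by positivity) (by linarith) hB
      (fun u hu => by rw [abs_of_nonneg (h0 u (hs' u hu))]; exact hup u (hs u hu))
      (fun u hu => (hL u (hs' u hu)).trans (by
        have := mul_le_mul_of_nonneg_left (hup u (hs u hu)) hB
        linarith)) (by positivity)
    rw [le_div_iff₀ hδp]
    have h2 : (δ / 4) ^ 2 ≤ 1 / 4 := by nlinarith
    have h3 := mul_le_mul_of_nonneg_left h2 (by positivity : 0 ≤ B * (4 ^ q * w y0))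
    rw [hK]
    linarith
  have hθδ : θ * δ ≤ δ / 4 := by have := mul_le_mul_of_nonneg_right hθ1 hδ0; linarith
  have hin : ∀ z, ‖z - y0‖ ≤ θ * δ → w y0 / 2 ≤ w z := fun z hz => by
    have h1 := (convex_closedBall y0 (δ / 4)).norm_image_sub_le_of_norm_fderiv_le
      (fun u _ => hw.differentiable (by norm_num) u) hgrad (mem_closedBall_self (by positivity))
      (mem_closedBall_iff_norm.2 (hz.trans hθδ))
    have h2 : K * w y0 / δ * ‖z - y0‖ ≤ K * w y0 / δ * (θ * δ) :=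
      mul_le_mul_of_nonneg_left hz (by positivity)
    have h3 : K * w y0 / δ * (θ * δ) = θ * K * w y0 := by field_simp
    rw [h3, hθK] at h2
    rw [Real.norm_eq_abs] at h1
    linarith [neg_abs_le (w z - w y0)]
  have hδrq : (δ ^ 2) ^ q ≤ (r ^ 2) ^ q :=
    pow_le_pow_left₀ (sq_nonneg _) (pow_le_pow_left₀ hδ0 hδr 2) q
  rcases le_or_gt ‖x - y0‖ (θ * δ) with hc | hc
  · have h1 := hin x hc
    have h2 := mul_le_mul_of_nonneg_right hθq1 (by positivity : 0 ≤ (δ ^ 2) ^ q * w y0)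
    have h3 := mul_le_mul_of_nonneg_right hδrq hw0
    have h4 := mul_le_mul_of_nonneg_left h1 hrq.le
    have h5 : 0 ≤ (r ^ 2) ^ q * w x := by positivity
    linarith
  have hxy : ‖x - y0‖ ≤ r := by rw [← dist_eq_norm, dist_comm]; exact hd0
  have h1 := spread (w := w) (y := y0) (ρ := θ * δ) (R := 2 * r) (B := B) (m := w y0 / 2) (q := q)
    (by positivity) hB (hq _ (by positivity) (by linarith)) (by positivity)
    (fun _ _ _ => hw.contDiffAt) (fun z _ hz => h0 z (hb3 z (mem_closedBall_iff_norm.2 hz)))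
    (fun z _ hz => (le_abs_self _).trans (hL z (hb3 z (mem_closedBall_iff_norm.2 hz.le))))
    (fun z hz => hin z hz.le) x hc.le (by linarith)
  have hx0 : 0 < ‖x - y0‖ := lt_trans (by positivity) hc
  have h2 : ((θ * δ) ^ 2 / r ^ 2) ^ q ≤ ((θ * δ) ^ 2 / ‖x - y0‖ ^ 2) ^ q :=
    pow_le_pow_left₀ (by positivity) (div_le_div_of_nonneg_left (by positivity) (by positivity)
      (pow_le_pow_left₀ hx0.le hxy 2)) q
  have h3 : ((θ * δ) ^ 2 / (2 * r) ^ 2) ^ q ≤ 1 / 4 * ((θ * δ) ^ 2 / r ^ 2) ^ q := by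
    rw [show (θ * δ) ^ 2 / (2 * r) ^ 2 = 1 / 4 * ((θ * δ) ^ 2 / r ^ 2) by field_simp; norm_num,
      mul_pow]
    refine mul_le_mul_of_nonneg_right ?_ (by positivity)
    simpa using pow_le_pow_of_le_one (by norm_num : (0 : ℝ) ≤ 1 / 4) (by norm_num) hq1
  have h4 : ((θ * δ) ^ 2 / r ^ 2) ^ q * (r ^ 2) ^ q = (θ ^ 2) ^ q * (δ ^ 2) ^ q := by
    rw [← mul_pow, ← mul_pow]; congr 1; field_simp
  have h5 : w y0 / 2 * (3 / 4 * ((θ * δ) ^ 2 / r ^ 2) ^ q) ≤ w x :=
    le_trans (mul_le_mul_of_nonneg_left (by linarith) (by positivity)) h1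
  have h6 := mul_le_mul_of_nonneg_left h5 hrq.le
  have h7 : (r ^ 2) ^ q * (w y0 / 2 * (3 / 4 * ((θ * δ) ^ 2 / r ^ 2) ^ q)) =
      3 / 8 * ((θ ^ 2) ^ q * ((δ ^ 2) ^ q * w y0)) := by
    rw [← mul_assoc ((θ ^ 2) ^ q), ← h4]; ring
  have h8 : 0 ≤ (r ^ 2) ^ q * w x := by positivity
  linarith

/-- logarithmic gradient estimate -/
theorem harnack_grad (n : ℕ) {B : ℝ} (hB : 0 ≤ B) : ∃ C : ℝ, 1 ≤ C ∧
    ∀ (w : EE n → ℝ) (x : EE n) (r : ℝ), 0 < r → r ≤ 1 → ContDiff ℝ 2 w →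
    (∀ z ∈ closedBall x (3 * r), 0 ≤ w z) →
    (∀ z ∈ closedBall x (3 * r), |(Δ w) z| ≤ B * ‖fderiv ℝ w z‖ + B * w z) →
    r * ‖fderiv ℝ w x‖ ≤ C * w x := by
  obtain ⟨C, hC1, hC⟩ := harnack n hB
  refine ⟨(8 * n * (B + 1) + B + 1) * C, ?_, fun w x r hr hr1 hw h0 hL => ?_⟩
  · have : 0 ≤ (8 * n * (B + 1) + B) * C := by positivity
    linarith
  have h1 := hC w x r hr hr1 hw h0 hL
  have hs : closedBall x (r / 2) ⊆ closedBall x (3 * r) := closedBall_subset_closedBall (by linarith)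
  have hx := h0 x (mem_closedBall_self (by positivity))
  have h2 := grad_drift_r hw (x := x) (r := r / 2) (β := B) (M := C * w x) (G := B * (C * w x))
    (by positivity) (by linarith) hB
    (fun u hu => by rw [abs_of_nonneg (h0 u (hs hu))]; exact h1 u hu)
    (fun u hu => (hL u (hs hu)).trans (by
      have := mul_le_mul_of_nonneg_left (h1 u hu) hB
      linarith)) (by positivity)
  have h3 : (r / 2) ^ 2 ≤ 1 / 4 := by nlinarith
  have h4 := mul_le_mul_of_nonneg_left h3 (by positivity : 0 ≤ B * (C * w x))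
  have h5 : 0 ≤ C * w x := by positivity
  have h6 : 0 ≤ B * (C * w x) := by positivity
  linarith

/-- a logarithmic gradient bound along a segment integrates -/
theorem le_exp_mul_of_log_grad {w : EE n → ℝ} {x y : EE n} {C : ℝ}
    (hw : ∀ z ∈ segment ℝ x y, DifferentiableAt ℝ w z)
    (h : ∀ z ∈ segment ℝ x y, ‖fderiv ℝ w z‖ ≤ C * w z) :
    w y ≤ Real.exp (C * ‖y - x‖) * w x := by
  have hm : ∀ τ ∈ Icc (0 : ℝ) 1, x + τ • (y - x) ∈ segment ℝ x y := fun τ hτ => by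
    rw [segment_eq_image']; exact ⟨τ, hτ, rfl⟩
  have hd : ∀ τ ∈ Icc (0 : ℝ) 1,
      HasDerivAt (fun τ : ℝ => Real.exp (-(C * ‖y - x‖) * τ) * w (x + τ • (y - x)))
      (Real.exp (-(C * ‖y - x‖) * τ) * (fderiv ℝ w (x + τ • (y - x)) (y - x) -
        C * ‖y - x‖ * w (x + τ • (y - x)))) τ := fun τ hτ => by
    have h1 : HasDerivAt (fun τ : ℝ => x + τ • (y - x)) (y - x) τ := by
      simpa using ((hasDerivAt_id τ).smul_const (y - x)).const_add x
    have h2 := (hw _ (hm τ hτ)).hasFDerivAt.comp_hasDerivAt τ h1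
    refine ((((hasDerivAt_id τ).const_mul (-(C * ‖y - x‖))).exp).fun_mul h2).congr_deriv ?_
    simp only [id, Function.comp]; ring
  have ha := antitoneOn_of_deriv_nonpos (convex_Icc (0 : ℝ) 1)
    (f := fun τ : ℝ => Real.exp (-(C * ‖y - x‖) * τ) * w (x + τ • (y - x)))
    (fun τ hτ => (hd τ hτ).continuousAt.continuousWithinAt)
    (fun τ hτ => (hd τ (interior_subset hτ)).differentiableAt.differentiableWithinAt)
    (fun τ hτ => by
      have hτ' := interior_subset hτ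
      rw [(hd τ hτ').deriv]
      refine mul_nonpos_of_nonneg_of_nonpos (Real.exp_pos _).le ?_
      have h1 := (fderiv ℝ w (x + τ • (y - x))).le_opNorm (y - x)
      have h2 := mul_le_mul_of_nonneg_right (h _ (hm τ hτ')) (norm_nonneg (y - x))
      rw [Real.norm_eq_abs] at h1
      linarith [le_abs_self (fderiv ℝ w (x + τ • (y - x)) (y - x))])
  have h1 := ha (left_mem_Icc.2 zero_le_one) (right_mem_Icc.2 zero_le_one) zero_le_one
  simp only [mul_one, one_smul, add_sub_cancel, mul_zero, Real.exp_zero, zero_smul, add_zero,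
    one_mul] at h1
  have h2 := mul_le_mul_of_nonneg_left h1 (Real.exp_pos (C * ‖y - x‖)).le
  rwa [← mul_assoc, ← Real.exp_add, add_neg_cancel, Real.exp_zero, one_mul] at h2


theorem harnack_glob (n : ℕ) {B : ℝ} (hB : 0 ≤ B) : ∃ C : ℝ, 1 ≤ C ∧
    ∀ w : EE n → ℝ, ContDiff ℝ 2 w → (∀ z, 0 ≤ w z) →
    (∀ z, |(Δ w) z| ≤ B * ‖fderiv ℝ w z‖ + B * w z) →
    (∀ x, ‖fderiv ℝ w x‖ ≤ C * w x) ∧ ∀ x y, w y ≤ Real.exp (C * ‖y - x‖) * w x := by
  obtain ⟨C, hC1, hC⟩ := harnack_grad n hB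
  refine ⟨C, hC1, fun w hw h0 hL => ?_⟩
  have h : ∀ x, ‖fderiv ℝ w x‖ ≤ C * w x := fun x => by
    simpa using hC w x 1 one_pos le_rfl hw (fun z _ => h0 z) fun z _ => hL z
  exact ⟨h, fun x y => le_exp_mul_of_log_grad (fun z _ => hw.differentiable (by norm_num) z)
    fun z _ => h z⟩

end Crest.Agent.N067
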