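import Crest.Agent.N067.A.All
import Crest.Agent.N067.A.Harn

/-!
# Row 67 basics: ball barrier for `d`, Harnack for ordered pairs, Gibbons (helper88)
-/

set_option autoImplicit false

open Laplacian InnerProductSpace Topology Filter Set Metric
open scoped RealInnerProductSpace Gradient ContDiff

namespace Crest.Agent.N067

open Crest.Agent.R077

variable {n : ℕ} {v : EE n → ℝ}

theorem Sol.neg' (h : Sol v) : Sol fun x => -v x :=
  ⟨h.sm.neg, fun x => by rw [abs_neg]; exact h.lt x, neg_sol h.eq⟩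

theorem Sol.dd_neg' (h : Sol v) (x : EE n) : dd (fun x => -v x) x = -dd v x := by
  have e : -v x = Real.tanh (-(dd v x / Real.sqrt 2)) := by rw [Real.tanh_neg, ← h.eq_tanh]
  change Real.sqrt 2 * Real.artanh (-v x) = _
  rw [e, Real.artanh_tanh]
  have := sqrt2_pos
  field_simp

theorem Sol.dd_pos (h : Sol v) {x : EE n} (hx : 0 < v x) : 0 < dd v x :=
  mul_pos sqrt2_pos (Real.artanh_pos ⟨hx, (abs_lt.1 (h.lt x)).2⟩)

theorem Sol.dd_lt_zero (h : Sol v) {x : EE n} (hx : v x < 0) : dd v x < 0 :=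
  mul_neg_of_pos_of_neg sqrt2_pos (Real.artanh_neg ⟨(abs_lt.1 (h.lt x)).1, hx⟩)

theorem hasDerivAt_sqrt_add {L s : ℝ} (hs : 0 < s + L ^ 2) :
    HasDerivAt (fun s => √(s + L ^ 2)) (1 / (2 * √(s + L ^ 2))) s :=
  ((hasDerivAt_id s).add_const (L ^ 2)).sqrt hs.ne'

theorem contDiff_sqrtbar {L : ℝ} (hL : 0 < L) (x : EE n) {k : WithTop ℕ∞} :
    ContDiff ℝ k fun z : EE n => √(‖z - x‖ ^ 2 + L ^ 2) :=
  ((contDiff_sq x).add contDiff_const).sqrt fun z => by positivity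

theorem norm_fderiv_sqrtbar {L : ℝ} (hL : 0 < L) (x y : EE n) :
    ‖fderiv ℝ (fun z : EE n => √(‖z - x‖ ^ 2 + L ^ 2)) y‖ =
      ‖y - x‖ / √(‖y - x‖ ^ 2 + L ^ 2) := by
  have hs : 0 < ‖y - x‖ ^ 2 + L ^ 2 := by positivity
  rw [(hasFDerivAt_rad (F := fun s => √(s + L ^ 2)) (hasDerivAt_sqrt_add hs)).fderiv, norm_smul,
    innerSL_apply_norm, Real.norm_eq_abs, abs_of_nonneg (by positivity)]
  field_simp

theorem lap_sqrtbar {L : ℝ} (hL : 0 < L) (x y : EE n) :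
    (Δ fun z : EE n => √(‖z - x‖ ^ 2 + L ^ 2)) y ≤ n / √(‖y - x‖ ^ 2 + L ^ 2) := by
  have hs : 0 < ‖y - x‖ ^ 2 + L ^ 2 := by positivity
  have hF : ContDiffAt ℝ 2 (fun s : ℝ => √(s + L ^ 2)) (‖y - x‖ ^ 2) :=
    (contDiffAt_id.add contDiffAt_const).sqrt hs.ne'
  have h1 : deriv (fun s : ℝ => √(s + L ^ 2)) =ᶠ[𝓝 (‖y - x‖ ^ 2)]
      fun s => 1 / 2 * (√(s + L ^ 2))⁻¹ := by
    filter_upwards [Ioi_mem_nhds (show -L ^ 2 < ‖y - x‖ ^ 2 by linarith)] with s hs'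
    rw [(hasDerivAt_sqrt_add (show 0 < s + L ^ 2 by linarith [mem_Ioi.1 hs'])).deriv]
    ring
  have hρ0 := Real.sqrt_pos.2 hs
  have h2 := (((hasDerivAt_sqrt_add hs).fun_inv hρ0.ne').const_mul (1 / 2)).deriv
  rw [lap_rad (F := fun s : ℝ => √(s + L ^ 2)) hF, h1.deriv_eq, h2, h1.self_of_nhds]
  set ρ := √(‖y - x‖ ^ 2 + L ^ 2)
  have e : 4 * ‖y - x‖ ^ 2 * (1 / 2 * (-(1 / (2 * ρ)) / ρ ^ 2)) + 2 * n * (1 / 2 * ρ⁻¹) =
      n / ρ - ‖y - x‖ ^ 2 / ρ ^ 3 := by field_simp; ring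
  rw [e]
  have : 0 ≤ ‖y - x‖ ^ 2 / ρ ^ 3 := by positivity
  linarith

theorem ball_alg {n ρ L r q : ℝ} (hn : 0 ≤ n) (hρ1 : 1 ≤ ρ) (hL : 0 < L)
    (hL2 : L ^ 2 = 4 * (n + 1) ^ 2 * ρ) (hr : 0 ≤ r) (hq0 : 0 < q) (hq2 : q ^ 2 = r ^ 2 + L ^ 2)
    (h : 1 - ((1 - 1 / ρ) * (r / q)) ^ 2 ≤ n / q) : False := by
  have hρ0 : 0 < ρ := by linarith
  have hi : 1 / ρ ≤ 1 := (div_le_one hρ0).2 hρ1
  have hi0 : 0 < 1 / ρ := by positivity
  have hqle : q ≤ r + L := le_of_sq_le_sq (by rw [hq2]; nlinarith) (by positivity)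
  have h6 := mul_le_mul_of_nonneg_right h (sq_nonneg q)
  rw [show n / q * q ^ 2 = n * q by field_simp, show (1 - ((1 - 1 / ρ) * (r / q)) ^ 2) * q ^ 2 =
    q ^ 2 - (1 - 1 / ρ) ^ 2 * r ^ 2 by field_simp] at h6
  have h7 : (1 - 1 / ρ) ^ 2 * r ^ 2 ≤ (1 - 1 / ρ) * r ^ 2 :=
    mul_le_mul_of_nonneg_right (by nlinarith) (sq_nonneg r)
  have h8 : n * r ≤ 1 / ρ * r ^ 2 + n ^ 2 * ρ / 4 := by
    have h9 : 0 ≤ 1 / ρ * (r - n * ρ / 2) ^ 2 := by positivity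
    have e : 1 / ρ * (r - n * ρ / 2) ^ 2 = 1 / ρ * r ^ 2 - n * r + n ^ 2 * ρ / 4 := by
      field_simp; ring
    linarith
  have h9 : 2 * (n + 1) ≤ L := le_of_sq_le_sq (by
    have := mul_le_mul_of_nonneg_left hρ1 (by positivity : 0 ≤ 4 * (n + 1) ^ 2)
    linarith) hL.le
  have h10 := mul_le_mul_of_nonneg_right h9 hL.le
  have h11 := mul_le_mul_of_nonneg_left hqle hn
  have h12 : 0 ≤ n * ρ := by positivity
  have h13 : 0 ≤ n ^ 2 * ρ := by positivity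
  linarith

/-- BALL BARRIER for `d`: inside a ball of radius `ρ` in `{v > 0}`, `d` is at least the distance to
the sphere, up to a constant when `‖y - c‖ ≥ θ ρ` -/
theorem ball_dd (n : ℕ) : ∃ C : ℝ, 1 ≤ C ∧ ∀ v : EE n → ℝ, Sol v → ∀ (c y : EE n) (ρ : ℝ),
    (∀ z ∈ ball c ρ, 0 < v z) → ‖y - c‖ < ρ → ρ - √(‖y - c‖ ^ 2 + C * ρ) - C ≤ dd v y := by
  obtain ⟨R0, hR0, hb⟩ := ballS n (1 / 4) (by norm_num)
  have hn : (0 : ℝ) ≤ n := n.cast_nonneg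
  have h4 : 0 ≤ 4 * ((n : ℝ) + 1) ^ 2 := by positivity
  refine ⟨4 * (n + 1) ^ 2 + R0 + 1, by linarith, fun v hv c y ρ hpos hy => ?_⟩
  have hρ0 : 0 < ρ := (norm_nonneg _).trans_lt hy
  have hdy := hv.dd_pos (hpos y (mem_ball_iff_norm.2 hy))
  set L := √(4 * (n + 1) ^ 2 * ρ) with hLd
  have hL : 0 < L := Real.sqrt_pos.2 (by positivity)
  have hL2 : L ^ 2 = 4 * (n + 1) ^ 2 * ρ := Real.sq_sqrt (by positivity)
  have hm : √(‖y - c‖ ^ 2 + L ^ 2) ≤ √(‖y - c‖ ^ 2 + (4 * (n + 1) ^ 2 + R0 + 1) * ρ) :=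
    Real.sqrt_le_sqrt (by
      have := mul_pos hR0 hρ0
      rw [hL2]; linarith)
  have hr : ∀ z : EE n, ‖z - c‖ ≤ √(‖z - c‖ ^ 2 + L ^ 2) := fun z =>
    Real.le_sqrt_of_sq_le (by linarith [sq_nonneg L])
  clear_value L
  rcases le_or_gt (ρ - R0 - 1) ‖y - c‖ with h | h
  · linarith [hr y]
  have hρ1 : 1 ≤ ρ := by linarith [norm_nonneg (y - c)]
  set a := 1 - 1 / ρ with ha
  have hi : 1 / ρ ≤ 1 := (div_le_one hρ0).2 hρ1
  have hi0 : 0 < 1 / ρ := by positivity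
  have ha0 : 0 ≤ a := by linarith
  have ha1 : a ≤ 1 := by linarith
  have hg := contDiff_sqrtbar hL c (k := 2)
  have hvz : ∀ z ∈ closedBall c (ρ - R0), 3 / 4 ≤ v z := fun z hz => by
    have := hb v hv.isSol z fun u hu => hpos u (by
      rw [mem_ball] at *
      linarith [dist_triangle u z c, mem_closedBall.1 hz])
    linarith
  obtain ⟨z, hz, hmin⟩ := (isCompact_closedBall c (ρ - R0)).exists_isMinOn
    (f := fun z => dd v z + a * √(‖z - c‖ ^ 2 + L ^ 2))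
    ⟨y, mem_closedBall_iff_norm.2 (by linarith)⟩
    (hv.dd_sm.continuous.add (continuous_const.mul hg.continuous)).continuousOn
  have h1 : dd v z + a * √(‖z - c‖ ^ 2 + L ^ 2) ≤ dd v y + a * √(‖y - c‖ ^ 2 + L ^ 2) :=
    hmin (mem_closedBall_iff_norm.2 (by linarith) : y ∈ closedBall c (ρ - R0))
  have hv3 := hvz z hz
  rcases (mem_closedBall_iff_norm.1 hz).eq_or_lt with hzc | hzc
  · have h2 := hv.dd_pos (show 0 < v z by linarith)
    have h3 := mul_le_mul_of_nonneg_left (hr z) ha0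
    have h5 := mul_le_mul_of_nonneg_right ha1 (Real.sqrt_nonneg (‖y - c‖ ^ 2 + L ^ 2))
    have h6 : a * ‖z - c‖ = ρ - R0 - 1 + R0 / ρ := by rw [hzc, ha]; field_simp; ring
    have h7 : 0 ≤ R0 / ρ := by positivity
    linarith
  exfalso
  have hm' := hmin.isLocalMin (mem_of_superset (isOpen_ball.mem_nhds (mem_ball_iff_norm.2 hzc))
    ball_subset_closedBall)
  have hd2 := (hv.dd_cd 2).contDiffAt (x := z)
  have hg2 : ContDiffAt ℝ 2 (fun z : EE n => a * √(‖z - c‖ ^ 2 + L ^ 2)) z :=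
    contDiffAt_const.mul hg.contDiffAt
  have l1 := laplacian_nonneg_of_isLocalMin (hd2.add hg2) hm'
  rw [lap_add' hd2 hg2, lap_const_mul hg.contDiffAt, hv.lap_dd] at l1
  have g1 := hm'.hasFDerivAt_eq_zero ((hv.dd_diff z).hasFDerivAt.add
    ((hg.differentiable (by norm_num) z).hasFDerivAt.const_mul a))
  have g2 : ‖∇ (dd v) z‖ = a * (‖z - c‖ / √(‖z - c‖ ^ 2 + L ^ 2)) := by
    rw [norm_grad, eq_neg_of_add_eq_zero_left g1, norm_neg, norm_smul, norm_fderiv_sqrtbar hL,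
      Real.norm_eq_abs, abs_of_nonneg ha0]
  have l2 := mul_le_mul_of_nonneg_left (lap_sqrtbar hL c z) ha0
  have ht0 := hv.tt_nonneg z
  have hs : 0 < ‖z - c‖ ^ 2 + L ^ 2 := by positivity
  have hq0 := Real.sqrt_pos.2 hs
  have h2 : 1 ≤ Real.sqrt 2 * v z := by
    have h43 : 4 / 3 ≤ Real.sqrt 2 := Real.le_sqrt_of_sq_le (by norm_num)
    have := mul_le_mul h43 hv3 (by norm_num) sqrt2_pos.le
    linarith
  have h3 := mul_le_mul_of_nonneg_right h2 ht0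
  have h5 : a * (n / √(‖z - c‖ ^ 2 + L ^ 2)) ≤ n / √(‖z - c‖ ^ 2 + L ^ 2) :=
    mul_le_of_le_one_left (by positivity) ha1
  refine ball_alg hn hρ1 hL hL2 (norm_nonneg (z - c)) hq0 (Real.sq_sqrt hs.le) ?_
  rw [tt, g2] at l1 h3
  linarith

/-- the form away from the centre: only a constant is lost -/
theorem ball_dd' (n : ℕ) : ∃ C : ℝ, 1 ≤ C ∧ ∀ v : EE n → ℝ, Sol v → ∀ (c y : EE n) (ρ : ℝ),
    (∀ z ∈ ball c ρ, 0 < v z) → ρ / 2 ≤ ‖y - c‖ → ‖y - c‖ < ρ → ρ - ‖y - c‖ - C ≤ dd v y := by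
  obtain ⟨C, hC1, hC⟩ := ball_dd n
  refine ⟨2 * C, by linarith, fun v hv c y ρ hpos h1 h2 => ?_⟩
  have h3 := hC v hv c y ρ hpos h2
  have h4 : √(‖y - c‖ ^ 2 + C * ρ) ≤ ‖y - c‖ + C :=
    Real.sqrt_le_iff.2 ⟨by positivity, by nlinarith⟩
  linarith









end Crest.Agent.N067
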