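import Crest.Agent.N067.A.Ker4
import Crest.Agent.N067.A.DReg

-- ▼ part N067/A/HeatC
section

/-!
# Row 67 basics (helper47): heat semigroup comparison

`heat_mono`: `Δ u ≤ μ u` gives `e^{-μ s} P_s u ≤ u`.  `hk_core`: a subsolution `w` dominated by
`φ + (2 - Δ) φ` is locally dominated by `φ`.  `harnack_far`: the sharp growth rate `e^{√μ D}`.
-/

set_option autoImplicit false

open MeasureTheory Laplacian InnerProductSpace Topology Filter Set Metric
open scoped RealInnerProductSpace ContDiff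

namespace Crest.Agent.N067

open Crest.Agent.R077 Ker

noncomputable section

variable {n : ℕ}

theorem int_hk_shift {s M : ℝ} (hs : 0 < s) {u : EE n → ℝ} (hu : Continuous u)
    (h : ∀ z, |u z| ≤ M) (x : EE n) : Integrable fun z => hk s z * u (x + z) :=
  integrable_hk_mul hs (by fun_prop : Continuous fun z => u (x + z)).aestronglyMeasurable
    (gr_of_bdd fun z => h (x + z))

theorem heat_deriv {s M : ℝ} (μ : ℝ) (hs : 0 < s) {u : EE n → ℝ} (hu : ContDiff ℝ 2 u)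
    (h0 : ∀ z, |u z| ≤ M) (h2 : ∀ z, |(Δ u) z| ≤ M) (x : EE n) :
    HasDerivAt (fun t => Real.exp (-μ * t) * cv (hk t) u x)
      (-(Real.exp (-μ * s) * cv (hk s) (fun z => μ * u z - (Δ u) z) x)) s := by
  have cu : ContDiff ℝ 2 fun z => u (x + z) := hu.comp (contDiff_const.add contDiff_id)
  have g0 : Gr 0 M fun z => u (x + z) := gr_of_bdd fun z => h0 (x + z)
  have g2 : Gr 0 M (Δ fun z => u (x + z)) := gr_of_bdd fun z => by rw [lap_shift]; exact h2 _
  have he : HasDerivAt (fun t : ℝ => Real.exp (-μ * t)) (Real.exp (-μ * s) * -μ) s := by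
    simpa using ((hasDerivAt_id s).const_mul (-μ)).exp
  refine (he.fun_mul (hasDerivAt_heat hs cu.continuous g0)).congr_deriv ?_
  rw [← heat_green hs cu g0 g2]
  simp only [lap_shift]
  have e : cv (hk s) (fun z => μ * u z - (Δ u) z) x
      = μ * (∫ z, hk s z * u (x + z)) - ∫ z, hk s z * (Δ u) (x + z) := by
    rw [← integral_const_mul, ← integral_sub ((int_hk_shift hs hu.continuous h0 x).const_mul μ)
      (int_hk_shift hs (continuous_lap hu) h2 x), cv]
    congr 1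
    funext z
    ring
  rw [e]
  ring

theorem cv_hk_nonneg {s : ℝ} (hs : 0 < s) {f : EE n → ℝ} (h : ∀ z, 0 ≤ f z) (x : EE n) :
    0 ≤ cv (hk s) f x := integral_nonneg fun z => mul_nonneg (hk_pos hs z).le (h _)

/-- supersolutions dominate their heat means -/
theorem heat_mono {s M : ℝ} (μ : ℝ) (hs : 0 < s) {u : EE n → ℝ} (hu : ContDiff ℝ 2 u)
    (h0 : ∀ z, |u z| ≤ M) (h2 : ∀ z, |(Δ u) z| ≤ M) (h : ∀ z, (Δ u) z ≤ μ * u z) (x : EE n) :
    Real.exp (-μ * s) * cv (hk s) u x ≤ u x := by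
  set F : ℝ → ℝ := fun t => Real.exp (-μ * t) * ∫ y, hk 1 y * u (x + √t • y) with hF
  have hFe : ∀ t, 0 < t → F t = Real.exp (-μ * t) * cv (hk t) u x := fun t ht => by
    rw [cv, integral_hk_scale ht]
  have hd : ∀ t, 0 < t → HasDerivAt F
      (-(Real.exp (-μ * t) * cv (hk t) (fun z => μ * u z - (Δ u) z) x)) t := fun t ht => by
    refine (heat_deriv μ ht hu h0 h2 x).congr_of_eventuallyEq ?_
    filter_upwards [Ioi_mem_nhds ht] with r hr
    exact hFe r hr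
  have hc0 : ContinuousWithinAt F (Ici 0) 0 :=
    ((by fun_prop : Continuous fun t : ℝ => Real.exp (-μ * t)).continuousWithinAt).mul
      (continuousWithinAt_heat (w := fun z => u (x + z)) le_rfl
        (hu.continuous.comp (continuous_const.add continuous_id)) (gr_of_bdd fun z => h0 (x + z)))
  have hA : AntitoneOn F (Ici 0) := by
    refine antitoneOn_of_deriv_nonpos (convex_Ici 0) (fun t ht => ?_) (fun t ht => ?_)
      fun t ht => ?_
    · rcases (mem_Ici.1 ht).eq_or_lt with h1 | h1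
      · rw [← h1]; exact hc0
      · exact (hd t h1).continuousAt.continuousWithinAt
    · rw [interior_Ici] at ht
      exact (hd t ht).differentiableAt.differentiableWithinAt
    · rw [interior_Ici] at ht
      rw [(hd t ht).deriv, neg_nonpos]
      exact mul_nonneg (Real.exp_pos _).le (cv_hk_nonneg ht (fun z => sub_nonneg.2 (h z)) x)
  have h1 := hA self_mem_Ici (mem_Ici.2 hs.le) hs.le
  rw [hFe s hs] at h1
  refine h1.trans (le_of_eq ?_)
  simp only [hF, Real.sqrt_zero, zero_smul, mul_zero, Real.exp_zero, one_mul, add_zero]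
  rw [integral_mul_const, integral_hk one_pos, one_mul]

/-- subsolutions are dominated by their heat means -/
theorem heat_sub {s M : ℝ} (C : ℝ) (hs : 0 < s) {w : EE n → ℝ} (hw : ContDiff ℝ 2 w)
    (h0 : ∀ z, |w z| ≤ M) (h2 : ∀ z, |(Δ w) z| ≤ M) (h : ∀ z, -(C * w z) ≤ (Δ w) z) (x : EE n) :
    w x ≤ Real.exp (C * s) * cv (hk s) w x := by
  have e : ∀ z, (Δ fun y => -w y) z = -(Δ w) z := fun z => by
    rw [show (fun y => -w y) = -w from rfl, laplacian_neg]; rfl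
  have := heat_mono (-C) hs hw.neg (M := M) (fun z => by simpa using h0 z)
    (fun z => by rw [e]; simpa using h2 z) (fun z => by rw [e]; linarith [h z]) x
  simp only [cv, mul_neg, integral_neg, neg_neg] at this ⊢
  linarith

theorem hk_shift_le' {s : ℝ} (hs : 0 < s) {x x₀ : EE n} (hx : dist x x₀ ≤ 1) (y : EE n) :
    hk s (y - x) ≤ Real.exp (1 / (4 * s)) * cD n * hk (2 * s) (y - x₀) := by
  have h := hk_mul_exp hs (θ := 1 / 2) (by norm_num) (y - x₀)
  rw [show s / (1 - 1 / 2) = 2 * s by ring] at h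
  rw [mul_assoc, cD, ← h]
  unfold hk
  rw [mul_assoc ((4 * Real.pi * s) ^ _), ← Real.exp_add, mul_left_comm (Real.exp _),
    ← Real.exp_add]
  have hp := Real.pi_pos
  refine mul_le_mul_of_nonneg_left (Real.exp_le_exp.2 ?_) (by positivity)
  have h1 : ‖y - x₀‖ ≤ ‖y - x‖ + 1 := by
    have := norm_add_le (y - x) (x - x₀)
    rw [sub_add_sub_cancel] at this
    rw [dist_eq_norm] at hx
    linarith
  have h2 : ‖y - x₀‖ ^ 2 ≤ 2 * ‖y - x‖ ^ 2 + 2 := by
    nlinarith [norm_nonneg (y - x₀), norm_nonneg (y - x), sq_nonneg (‖y - x‖ - 1)]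
  rw [← add_div, ← add_div]
  exact div_le_div_of_nonneg_right (by linarith) (by linarith)

theorem int_hk_sub {s M : ℝ} (hs : 0 < s) {u : EE n → ℝ} (hu : Continuous u)
    (h : ∀ z, |u z| ≤ M) (x : EE n) : Integrable fun y => hk s (y - x) * u y :=
  ((integrable_hk hs).comp_sub_right x).mul_bdd hu.aestronglyMeasurable
    (Eventually.of_forall h)

theorem cv_shift_le {s M : ℝ} (hs : 0 < s) {w : EE n → ℝ} (hw : Continuous w)
    (h0 : ∀ z, |w z| ≤ M) (hp : ∀ z, 0 ≤ w z) {x y : EE n} (hx : dist y x ≤ 1) :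
    cv (hk s) w y ≤ Real.exp (1 / (4 * s)) * cD n * cv (hk (2 * s)) w x := by
  rw [cv_eq, cv_eq, ← integral_const_mul]
  refine integral_mono (int_hk_sub hs hw h0 y)
    ((int_hk_sub (by linarith) hw h0 x).const_mul _) fun z => ?_
  simp only [← mul_assoc]
  exact mul_le_mul_of_nonneg_right (hk_shift_le' hs hx z) (hp z)

/-- HK core -/
theorem hk_core (n : ℕ) {C : ℝ} (hC : 0 ≤ C) : ∃ K : ℝ, 0 ≤ K ∧ ∀ (w φ : EE n → ℝ) (M : ℝ),
    ContDiff ℝ 2 w → ContDiff ℝ 2 φ → (∀ z, |w z| ≤ M) → (∀ z, |(Δ w) z| ≤ M) →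
    (∀ z, |φ z| ≤ M) → (∀ z, |(Δ φ) z| ≤ M) → (∀ z, 0 ≤ w z) → (∀ z, 0 ≤ φ z) →
    (∀ z, -(C * w z) ≤ (Δ w) z) → (∀ z, (Δ φ) z ≤ 2 * φ z) →
    (∀ z, w z ≤ φ z + (2 * φ z - (Δ φ) z)) → ∀ x y, dist y x ≤ 1 → w y ≤ K * φ x := by
  have hc := cD_pos (n := n)
  refine ⟨Real.exp (C * 2) * (Real.exp 1 * cD n * (2 * Real.exp 8)), by positivity,
    fun w φ M hw hφ w0 w2 p0 p2 wp pp hsub hsup hle x y hxy => ?_⟩
  obtain ⟨σ, hσ, h1⟩ := exists_hasDerivAt_eq_slope
    (fun t => Real.exp (-2 * t) * cv (hk t) φ x)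
    (fun t => -(Real.exp (-2 * t) * cv (hk t) (fun z => 2 * φ z - (Δ φ) z) x))
    (show (2 : ℝ) < 4 by norm_num)
    (fun t ht => (heat_deriv 2 (by linarith [ht.1]) hφ p0 p2 x).continuousAt.continuousWithinAt)
    fun t ht => heat_deriv 2 (by linarith [ht.1]) hφ p0 p2 x
  have hσ0 : 0 < σ := by linarith [hσ.1]
  have h2 := heat_mono 2 (s := 2) two_pos hφ p0 p2 hsup x
  have h3 := heat_mono 2 hσ0 hφ p0 p2 hsup x
  have h4 : 0 ≤ Real.exp (-2 * 4) * cv (hk 4) φ x :=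
    mul_nonneg (Real.exp_pos _).le (cv_hk_nonneg (by norm_num) pp x)
  have cf : Continuous fun z => 2 * φ z - (Δ φ) z :=
    (continuous_const.mul hφ.continuous).sub (continuous_lap hφ)
  have f0 : ∀ z, |2 * φ z - (Δ φ) z| ≤ 3 * M := fun z => by
    have := abs_sub (2 * φ z) ((Δ φ) z)
    rw [abs_mul, abs_two] at this
    linarith [p0 z, p2 z]
  have h5 : cv (hk σ) w x ≤ cv (hk σ) φ x + cv (hk σ) (fun z => 2 * φ z - (Δ φ) z) x := by
    unfold cv
    rw [← integral_add (int_hk_shift hσ0 hφ.continuous p0 x) (int_hk_shift hσ0 cf f0 x)]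
    refine integral_mono (int_hk_shift hσ0 hw.continuous w0 x)
      ((int_hk_shift hσ0 hφ.continuous p0 x).add (int_hk_shift hσ0 cf f0 x)) fun z => ?_
    simp only [← mul_add]
    exact mul_le_mul_of_nonneg_left (hle _) (hk_pos hσ0 z).le
  have h6 : Real.exp (-2 * σ) * cv (hk σ) w x ≤ 2 * φ x := by
    have := mul_le_mul_of_nonneg_left h5 (Real.exp_pos (-2 * σ)).le
    rw [mul_add] at this
    rw [show (4 : ℝ) - 2 = 2 by norm_num, eq_div_iff two_ne_zero] at h1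
    linarith [pp x]
  have h7 : cv (hk σ) w x ≤ 2 * Real.exp 8 * φ x := by
    have e1 : Real.exp (2 * σ) * Real.exp (-2 * σ) = 1 := by rw [← Real.exp_add]; simp
    have e2 : Real.exp (2 * σ) ≤ Real.exp 8 := Real.exp_le_exp.2 (by linarith [hσ.2])
    calc cv (hk σ) w x = Real.exp (2 * σ) * (Real.exp (-2 * σ) * cv (hk σ) w x) := by
          rw [← mul_assoc, e1, one_mul]
      _ ≤ Real.exp (2 * σ) * (2 * φ x) := mul_le_mul_of_nonneg_left h6 (Real.exp_pos _).le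
      _ ≤ Real.exp 8 * (2 * φ x) := mul_le_mul_of_nonneg_right e2 (by linarith [pp x])
      _ = _ := by ring
  have hs : 0 < σ / 2 := by linarith
  have h8 := heat_sub C hs hw w0 w2 hsub y
  have h9 := cv_shift_le hs hw.continuous w0 wp hxy
  rw [show 2 * (σ / 2) = σ by ring] at h9
  have h10 : Real.exp (C * (σ / 2)) ≤ Real.exp (C * 2) :=
    Real.exp_le_exp.2 (mul_le_mul_of_nonneg_left (by linarith [hσ.2]) hC)
  have h11 : Real.exp (1 / (4 * (σ / 2))) ≤ Real.exp 1 :=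
    Real.exp_le_exp.2 (by rw [div_le_one (by linarith)]; linarith [hσ.1])
  have h12 := cv_hk_nonneg hσ0 wp x
  have h13 := cv_hk_nonneg hs wp y
  calc w y ≤ Real.exp (C * 2) * cv (hk (σ / 2)) w y :=
        h8.trans (mul_le_mul_of_nonneg_right h10 h13)
    _ ≤ Real.exp (C * 2) * (Real.exp 1 * cD n * (2 * Real.exp 8 * φ x)) := by
        refine mul_le_mul_of_nonneg_left (h9.trans ?_) (Real.exp_pos _).le
        gcongr
    _ = _ := by ring

/-- from the local Harnack inequality to the sharp rate -/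
theorem harnack_far (n : ℕ) {μ A : ℝ} (hμ : 0 < μ) (hA : 0 ≤ A) : ∃ K : ℝ, 0 ≤ K ∧
    ∀ (φ : EE n → ℝ) (M : ℝ), ContDiff ℝ 2 φ → (∀ z, |φ z| ≤ M) → (∀ z, |(Δ φ) z| ≤ M) →
    (∀ z, 0 ≤ φ z) → (∀ z, (Δ φ) z ≤ μ * φ z) → (∀ x y, dist y x ≤ 1 → φ y ≤ A * φ x) →
    ∀ x y, φ x ≤ K * (1 + dist x y) ^ (n / 2 : ℝ) * Real.exp (√μ * dist x y) * φ y := by
  have hp := Real.pi_pos
  have hq : 0 < √μ := Real.sqrt_pos.2 hμ
  have hq2 : √μ * √μ = μ := Real.mul_self_sqrt hμ.le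
  set V := (volume (ball (0 : EE n) 1)).toReal with hV
  have hV0 : 0 < V := ENNReal.toReal_pos (measure_ball_pos _ _ one_pos).ne' measure_ball_lt_top.ne
  refine ⟨A / V * (2 * Real.pi / √μ) ^ (n / 2 : ℝ) * Real.exp √μ, by positivity,
    fun φ M hφ p0 p2 pp hsup hH x y => ?_⟩
  set D := dist x y with hD
  have hD0 : 0 ≤ D := dist_nonneg
  set s := (1 + D) / (2 * √μ) with hs
  have hs0 : 0 < s := by positivity
  have h1 := heat_mono μ hs0 hφ p0 p2 hsup y
  set c := (4 * Real.pi * s) ^ (-(n / 2 : ℝ)) * Real.exp (-(1 + D) ^ 2 / (4 * s)) with hc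
  have hc0 : 0 < c := by positivity
  have h2 : c * φ x * V ≤ A * cv (hk s) φ y := by
    rw [cv_eq, ← integral_const_mul]
    have i1 := (int_hk_sub hs0 hφ.continuous p0 y).const_mul A
    calc c * φ x * V = ∫ _z in ball x 1, c * φ x := by
          rw [setIntegral_const, smul_eq_mul, mul_comm, Measure.real, Measure.addHaar_ball_center]
      _ ≤ ∫ z in ball x 1, A * (hk s (z - y) * φ z) := by
          refine setIntegral_mono_on (integrableOn_const measure_ball_lt_top.ne) i1.integrableOn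
            measurableSet_ball fun z hz => ?_
          have h3 : φ x ≤ A * φ z := hH z x (by rw [dist_comm]; exact (mem_ball.1 hz).le)
          have h4 : c ≤ hk s (z - y) := by
            refine mul_le_mul_of_nonneg_left (Real.exp_le_exp.2 ?_) (by positivity)
            have h5 : ‖z - y‖ ≤ 1 + D := by
              rw [← dist_eq_norm]
              linarith [dist_triangle z x y, mem_ball.1 hz]
            exact div_le_div_of_nonneg_right
              (neg_le_neg (pow_le_pow_left₀ (norm_nonneg _) h5 2)) (by positivity)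
          calc c * φ x ≤ hk s (z - y) * (A * φ z) :=
                mul_le_mul h4 h3 (pp x) (hk_pos hs0 _).le
            _ = _ := by ring
      _ ≤ _ := setIntegral_le_integral i1 (Eventually.of_forall fun z =>
          mul_nonneg hA (mul_nonneg (hk_pos hs0 _).le (pp z)))
  have h3 : Real.exp (-μ * s) * c * φ x * V ≤ A * φ y := by
    have := mul_le_mul_of_nonneg_left h2 (Real.exp_pos (-μ * s)).le
    have h4 := mul_le_mul_of_nonneg_left h1 hA
    nlinarith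
  have e : (2 * Real.pi / √μ) ^ (n / 2 : ℝ) * Real.exp √μ * (1 + D) ^ (n / 2 : ℝ) *
      Real.exp (√μ * D) * (Real.exp (-μ * s) * c) = 1 := by
    have e1 : 4 * Real.pi * s = 2 * Real.pi / √μ * (1 + D) := by rw [hs]; field_simp; ring
    have e2 : √μ + √μ * D + -μ * s + -(1 + D) ^ 2 / (4 * s) = 0 := by
      rw [hs]; field_simp; rw [sq √μ, hq2]; ring
    have e3 : Real.exp √μ * Real.exp (√μ * D) * Real.exp (-μ * s) *
        Real.exp (-(1 + D) ^ 2 / (4 * s)) = 1 := by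
      rw [← Real.exp_add, ← Real.exp_add, ← Real.exp_add, e2, Real.exp_zero]
    have e4 : (2 * Real.pi / √μ) ^ (n / 2 : ℝ) * (1 + D) ^ (n / 2 : ℝ) *
        (4 * Real.pi * s) ^ (-(n / 2 : ℝ)) = 1 := by
      rw [← Real.mul_rpow (by positivity) (by positivity), ← e1, ← Real.rpow_add (by positivity)]
      simp
    rw [hc]
    linear_combination (Real.exp √μ * Real.exp (√μ * D) * Real.exp (-μ * s) *
        Real.exp (-(1 + D) ^ 2 / (4 * s))) * e4 + e3
  set E := (2 * Real.pi / √μ) ^ (n / 2 : ℝ) * Real.exp √μ * (1 + D) ^ (n / 2 : ℝ) *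
      Real.exp (√μ * D) with hE
  have hE0 : 0 ≤ E := by positivity
  calc φ x = E * (Real.exp (-μ * s) * c * φ x * V) / V := by
        rw [eq_div_iff hV0.ne']; linear_combination (-(φ x * V)) * e
    _ ≤ E * (A * φ y) / V := by gcongr
    _ = _ := by rw [hE]; ring

/-- a polynomial factor is absorbed by any exponential -/
theorem poly_le_exp (p : ℝ) (hp : 0 ≤ p) {ε : ℝ} (hε : 0 < ε) :
    ∃ K : ℝ, 0 ≤ K ∧ ∀ D : ℝ, 0 ≤ D → (1 + D) ^ p ≤ K * Real.exp (ε * D) := by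
  set δ := ε / (p + 1) with hδ
  have hδ0 : 0 < δ := by positivity
  refine ⟨(1 + 1 / δ) ^ p, by positivity, fun D hD => ?_⟩
  have h1 : 1 + D ≤ (1 + 1 / δ) * Real.exp (δ * D) := by
    have h2 := Real.add_one_le_exp (δ * D)
    have h3 : 1 + D ≤ (1 + 1 / δ) * (δ * D + 1) := by
      have : (1 + 1 / δ) * (δ * D + 1) = 1 + D + (δ * D + 1 / δ) := by field_simp; ring
      rw [this]
      have : 0 ≤ δ * D + 1 / δ := by positivity
      linarith
    exact h3.trans (mul_le_mul_of_nonneg_left h2 (by positivity))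
  refine (Real.rpow_le_rpow (by positivity) h1 hp).trans ?_
  rw [Real.mul_rpow (by positivity) (by positivity), ← Real.exp_mul]
  refine mul_le_mul_of_nonneg_left (Real.exp_le_exp.2 ?_) (by positivity)
  have : δ * p ≤ ε := by
    rw [hδ, div_mul_eq_mul_div, div_le_iff₀ (by positivity)]; nlinarith
  nlinarith

end

end Crest.Agent.N067
end

-- ▼ part N067/A/HK

/-!
# Row 67 basics (helper47): the Harnack package HK (idea: helper54, note h54-1)

`t` is locally comparable, `|B|² ≤ C t`, `|DᵏB| ≤ C √t`, `|Dᵏt| ≤ C t` with universal constants;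
`q = ψ t` grows at most at the rate `√2`, `t` at most at the rate `2√2`.
-/

set_option autoImplicit false

open MeasureTheory Laplacian InnerProductSpace Topology Filter Set Metric
open scoped RealInnerProductSpace ContDiff Gradient

namespace Crest.Agent.N067

open Crest.Agent.R077

noncomputable section

variable {n : ℕ} {v : EE n → ℝ}

/-- `Δ (ψ f) = ψ Δ_μ f + f Δ ψ` -/
theorem Sol.lap_psi_mul (h : Sol v) {f : EE n → ℝ} {x : EE n} (hf : ContDiffAt ℝ 2 f x) :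
    (Δ fun y => psi v y * f y) x = psi v x * Lm v f x + f x * (Δ (psi v)) x := by
  rw [lap_mul' (contDiff_infty.1 h.psi_sm 2).contDiffAt hf, Lm_eq]
  have : gin (psi v) f x = -Real.sqrt 2 * v x * psi v x * gin (dd v) f x := by
    simp only [gin, h.pdv_psi, Finset.mul_sum, mul_assoc]
  rw [this]
  ring

theorem Lm_sq (v : EE n → ℝ) {f : EE n → ℝ} {x : EE n} (hf : ContDiffAt ℝ 2 f x) :
    Lm v (fun y => f y ^ 2) x = 2 * f x * Lm v f x + 2 * gsq f x := by
  have : gin (dd v) (fun y => f y ^ 2) x = 2 * f x * gin (dd v) f x := by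
    simp only [gin, pdv_sq (hf.differentiableAt (by norm_num)), Finset.mul_sum]
    exact Finset.sum_congr rfl fun i _ => by ring
  rw [Lm_eq, Lm_eq, lap_sq hf, this]
  ring

/-- `(2 - Δ) q = ψ² t (1 + t) + 2 ψ |B|²` -/
theorem Sol.lap_qq (h : Sol v) (x : EE n) : (Δ (qq v)) x
    = 2 * qq v x - (psi v x ^ 2 * tt v x * (1 + tt v x) + 2 * psi v x * hsq (dd v) x) := by
  have h1 := h.lap_psi_mul (h.tt_cd 2).contDiffAt (x := x)
  have h2 := h.Lm_tt x
  change (Δ (qq v)) x = _ at h1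
  rw [h1, h.lap_psi2, show Lm v (tt v) x = 2 * (qq v x * (1 - tt v x) - hsq (dd v) x) by linarith]
  unfold qq
  ring

theorem Sol.lap_qq_le (h : Sol v) (x : EE n) : (Δ (qq v)) x ≤ 2 * qq v x := by
  have := h.psi_pos x
  have := h.tt_nonneg x
  have := hsq_nonneg (dd v) x
  rw [h.lap_qq, sub_le_self_iff]
  positivity

theorem Sol.psi_eq_cosh (h : Sol v) (x : EE n) :
    psi v x = 1 / Real.cosh (dd v x / Real.sqrt 2) ^ 2 := by
  have := Real.cosh_pos (dd v x / Real.sqrt 2)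
  rw [psi, h.eq_tanh x, Real.tanh_eq_sinh_div_cosh]
  field_simp
  linarith [Real.cosh_sq_sub_sinh_sq (dd v x / Real.sqrt 2)]

theorem cosh_le_exp_mul (a b : ℝ) : Real.cosh b ≤ Real.exp |a - b| * Real.cosh a := by
  rw [Real.cosh_eq, Real.cosh_eq]
  have h1 : Real.exp b ≤ Real.exp |a - b| * Real.exp a := by
    rw [← Real.exp_add]; exact Real.exp_le_exp.2 (by linarith [neg_abs_le (a - b)])
  have h2 : Real.exp (-b) ≤ Real.exp |a - b| * Real.exp (-a) := by
    rw [← Real.exp_add]; exact Real.exp_le_exp.2 (by linarith [le_abs_self (a - b)])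
  linarith

/-- `ψ` depends on `d` at the rate `√2` -/
theorem Sol.psi_le_dd (h : Sol v) (x y : EE n) :
    psi v x ≤ Real.exp (Real.sqrt 2 * |dd v x - dd v y|) * psi v y := by
  have h1 := cosh_le_exp_mul (dd v x / Real.sqrt 2) (dd v y / Real.sqrt 2)
  have hx := Real.cosh_pos (dd v x / Real.sqrt 2)
  have hy := Real.cosh_pos (dd v y / Real.sqrt 2)
  have e : Real.exp (Real.sqrt 2 * |dd v x - dd v y|)
      = Real.exp |dd v x / Real.sqrt 2 - dd v y / Real.sqrt 2| ^ 2 := by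
    rw [← Real.exp_nat_mul, ← sub_div, abs_div, abs_of_pos sqrt2_pos]
    congr 1
    have := sqrt2_pos
    field_simp
    rw [sqrt2_sq]
    push_cast
    ring
  rw [h.psi_eq_cosh, h.psi_eq_cosh, e, mul_one_div, div_le_div_iff₀ (by positivity) (by positivity),
    one_mul, ← mul_pow]
  exact pow_le_pow_left₀ hy.le h1 2

/-- `log ψ` is `√2`-Lipschitz -/
theorem Sol.psi_le (h : Sol v) (x y : EE n) :
    psi v x ≤ Real.exp (Real.sqrt 2 * dist x y) * psi v y := by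
  refine (h.psi_le_dd x y).trans (mul_le_mul_of_nonneg_right (Real.exp_le_exp.2
    (mul_le_mul_of_nonneg_left ?_ sqrt2_pos.le)) (h.psi_pos y).le)
  rw [dist_eq_norm]
  exact h.abs_dd_sub_le x y

theorem abs_hs_le (f : EE n → ℝ) (i j : Fin n) (x : EE n) : |hs f i j x| ≤ √(hsq f x) :=
  Real.abs_le_sqrt ((Finset.single_le_sum (f := fun j => hs f i j x ^ 2) (fun _ _ => sq_nonneg _)
    (Finset.mem_univ j)).trans (Finset.single_le_sum (f := fun i => ∑ j, hs f i j x ^ 2)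
      (fun _ _ => Finset.sum_nonneg fun _ _ => sq_nonneg _) (Finset.mem_univ i)))

theorem Sol.tt_le_sqrt (h : Sol v) (x : EE n) : tt v x ≤ √(tt v x) :=
  Real.le_sqrt_of_sq_le (by nlinarith [h.tt_nonneg x, tt_le_one v x])

/-- `ψ (|B|² + t)` is a subsolution -/
theorem exists_sub (n : ℕ) : ∃ C : ℝ, 0 ≤ C ∧ ∀ v : EE n → ℝ, Sol v → ∀ x,
    -(C * (psi v x * (hsq (dd v) x + tt v x)))
      ≤ (Δ fun y => psi v y * (hsq (dd v) y + tt v y)) x := by
  have ht : UB (fun (a : SS n) x => √(hsq (dd a.1) x + tt a.1 x)) 0 fun a => tt a.1 :=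
    ⟨fun a => a.2.tt_sm, 1, zero_le_one, fun a x => by
      rw [one_mul, abs_of_nonneg (a.2.tt_nonneg x)]
      exact (a.2.tt_le_sqrt x).trans (Real.sqrt_le_sqrt (by linarith [hsq_nonneg (dd a.1) x]))⟩
  have hB : ∀ i j, UB (fun (a : SS n) x => √(hsq (dd a.1) x + tt a.1 x)) 0
      fun a => hs (dd a.1) i j := fun i j =>
    ⟨fun a => a.2.hs_sm i j, 1, zero_le_one, fun a x => by
      rw [one_mul]
      exact (abs_hs_le _ i j x).trans (Real.sqrt_le_sqrt (by linarith [a.2.tt_nonneg x]))⟩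
  obtain ⟨C, hC, h1⟩ := (UB.sum Finset.univ fun i _ => UB.sum Finset.univ fun j _ =>
    (hB i j).mul (ub_LmB ht hB i j)).bd
  refine ⟨2 * C + 3, by positivity, fun v h x => ?_⟩
  have h2 := (abs_le.1 (h1 ⟨v, h⟩ x)).1
  have hp := h.psi_pos x
  have h3 := h.tt_nonneg x
  have h4 := hsq_nonneg (dd v) x
  simp only at h2
  rw [Real.mul_self_sqrt (by linarith)] at h2
  have c2 : ∀ i j, ContDiffAt ℝ 2 (hs (dd v) i j) x := fun i j =>
    (contDiff_infty.1 (h.hs_sm i j) 2).contDiffAt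
  have cp : ContDiffAt ℝ 2 (psi v) x := (contDiff_infty.1 h.psi_sm 2).contDiffAt
  have e : (fun y => psi v y * (hsq (dd v) y + tt v y))
      = fun y => (∑ i, ∑ j, psi v y * hs (dd v) i j y ^ 2) + qq v y := funext fun y => by
    simp only [hsq, qq, mul_add, Finset.mul_sum]
  have h5 : -psi v x ≤ (Δ (psi v)) x := by
    rw [h.lap_psi]
    nlinarith [mul_nonneg (h.qq_nonneg x) hp.le, mul_nonneg (sq_nonneg (v x)) hp.le]
  have h6 : ∀ i j, psi v x * (2 * (hs (dd v) i j x * Lm v (hs (dd v) i j) x))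
      - psi v x * hs (dd v) i j x ^ 2 ≤ (Δ fun y => psi v y * hs (dd v) i j y ^ 2) x := fun i j => by
    rw [h.lap_psi_mul ((c2 i j).pow 2), Lm_sq v (c2 i j)]
    nlinarith [mul_nonneg hp.le (gsq_nonneg (hs (dd v) i j) x),
      mul_le_mul_of_nonneg_left h5 (sq_nonneg (hs (dd v) i j x))]
  have h7 := Finset.sum_le_sum fun i (_ : i ∈ Finset.univ) =>
    Finset.sum_le_sum fun j (_ : j ∈ Finset.univ) => h6 i j
  simp only [Finset.sum_sub_distrib, ← Finset.mul_sum] at h7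
  change _ - psi v x * hsq (dd v) x ≤ _ at h7
  rw [e, lap_add' (ContDiffAt.sum fun i _ => ContDiffAt.sum fun j _ => cp.mul ((c2 i j).pow 2))
    (contDiff_infty.1 h.qq_sm 2).contDiffAt,
    lap_sum _ fun i _ => ContDiffAt.sum fun j _ => cp.mul ((c2 i j).pow 2)]
  simp only [fun i => lap_sum (x := x) Finset.univ fun j _ => cp.mul ((c2 i j).pow 2)]
  rw [h.lap_qq]
  have h8 : psi v x ^ 2 * tt v x * (1 + tt v x) ≤ 2 * qq v x := by
    have := psi_le_one v x
    have := tt_le_one v x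
    have : psi v x * (1 + tt v x) ≤ 2 := by nlinarith
    have := mul_le_mul_of_nonneg_left this (h.qq_nonneg x)
    unfold qq at this ⊢
    nlinarith
  nlinarith [mul_le_mul_of_nonneg_left h2 hp.le, mul_nonneg hp.le h3, mul_nonneg hp.le h4]

/-- HK in `ψ`-weighted form -/
theorem hk_q (n : ℕ) : ∃ K : ℝ, 0 ≤ K ∧ ∀ v : EE n → ℝ, Sol v → ∀ x y, dist y x ≤ 1 →
    psi v y * (hsq (dd v) y + tt v y) ≤ K * qq v x := by
  obtain ⟨C, hC, h1⟩ := exists_sub n
  obtain ⟨K, hK, h2⟩ := hk_core n hC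
  have hw := (ub_psi (n := n) 2).bmul ((ub_hsq 2).add (ub_t 2))
  obtain ⟨M1, p1, b1⟩ := hw.bd
  obtain ⟨M2, p2, b2⟩ := hw.lap.bd
  obtain ⟨M3, p3, b3⟩ := (ub_q (n := n) 2).bd
  obtain ⟨M4, p4, b4⟩ := (ub_q (n := n) 2).lap.bd
  refine ⟨K, hK, fun v h => h2 _ _ (M1 + M2 + M3 + M4) (contDiff_infty.1 (hw.sm ⟨v, h⟩) 2)
    (contDiff_infty.1 h.qq_sm 2) (fun z => (b1 ⟨v, h⟩ z).trans (by linarith))
    (fun z => (b2 ⟨v, h⟩ z).trans (by linarith)) (fun z => (b3 ⟨v, h⟩ z).trans (by linarith))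
    (fun z => (b4 ⟨v, h⟩ z).trans (by linarith))
    (fun z => mul_nonneg (h.psi_pos z).le (add_nonneg (hsq_nonneg _ z) (h.tt_nonneg z)))
    h.qq_nonneg (h1 v h) h.lap_qq_le fun z => ?_⟩
  have := h.psi_pos z
  have := h.tt_nonneg z
  have := hsq_nonneg (dd v) z
  have h3 : 0 ≤ psi v z ^ 2 * tt v z * (1 + tt v z) := by positivity
  have h4 : 0 ≤ psi v z * hsq (dd v) z := by positivity
  rw [h.lap_qq]
  unfold qq
  nlinarith

/-- HK: `|B(y)|² + t(y) ≤ K t(x)` for `|x - y| ≤ 1` -/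
theorem hk_loc (n : ℕ) : ∃ K : ℝ, 0 ≤ K ∧ ∀ v : EE n → ℝ, Sol v → ∀ x y, dist y x ≤ 1 →
    hsq (dd v) y + tt v y ≤ K * tt v x := by
  obtain ⟨K, hK, h1⟩ := hk_q n
  refine ⟨K * Real.exp (Real.sqrt 2), by positivity, fun v h x y hxy => ?_⟩
  have h2 := h1 v h x y hxy
  have h3 : psi v x ≤ Real.exp (Real.sqrt 2) * psi v y :=
    (h.psi_le x y).trans (mul_le_mul_of_nonneg_right (Real.exp_le_exp.2 (mul_le_of_le_one_right
      sqrt2_pos.le (by rwa [dist_comm]))) (h.psi_pos y).le)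
  refine le_of_mul_le_mul_left (h2.trans ?_) (h.psi_pos y)
  have := mul_le_mul_of_nonneg_left h3 (mul_nonneg hK (h.tt_nonneg x))
  unfold qq
  nlinarith

/-- `|B|² ≤ K t` -/
theorem hk_hsq (n : ℕ) : ∃ K : ℝ, 0 ≤ K ∧ ∀ v : EE n → ℝ, Sol v → ∀ x,
    hsq (dd v) x ≤ K * tt v x := by
  obtain ⟨K, hK, h1⟩ := hk_loc n
  exact ⟨K, hK, fun v h x => by linarith [h1 v h x x (by simp), h.tt_nonneg x]⟩

theorem wc_t : WC fun (a : SS n) => tt a.1 := by
  obtain ⟨K, hK, h1⟩ := hk_loc n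
  exact ⟨fun a => a.2.tt_nonneg, K, hK, fun a x y hy => by
    linarith [h1 a.1 a.2 x y hy, hsq_nonneg (dd a.1) y]⟩

/-- `|DᵏB| ≤ C √t` -/
theorem ub_B_t (k : ℕ) (i j : Fin n) :
    UB (fun (a : SS n) x => √(tt a.1 x)) k fun a => hs (dd a.1) i j := by
  obtain ⟨K, hK, h1⟩ := hk_hsq n
  refine ub_B_w wc_t.sqrt ⟨fun a => a.2.tt_sm, 1, zero_le_one, fun a x => ?_⟩
    (fun i j => ⟨fun a => a.2.hs_sm i j, √K, Real.sqrt_nonneg _, fun a x => ?_⟩) k i j
  · rw [one_mul, abs_of_nonneg (a.2.tt_nonneg x)]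
    exact a.2.tt_le_sqrt x
  · rw [← Real.sqrt_mul hK]
    exact (abs_hs_le _ i j x).trans (Real.sqrt_le_sqrt (h1 a.1 a.2 x))

/-- products of two factors of weight `√t` have weight `t` -/
theorem UB.mul_t {k : ℕ} {f g : SS n → EE n → ℝ} (hf : UB (fun a x => √(tt a.1 x)) k f)
    (hg : UB (fun a x => √(tt a.1 x)) k g) : UB (fun a => tt a.1) k fun a x => f a x * g a x :=
  (hf.mul hg).mono' fun a x => (Real.mul_self_sqrt (a.2.tt_nonneg x)).le


theorem ub_hsq_t (k : ℕ) : UB (fun a : SS n => tt a.1) k fun a => hsq (dd a.1) :=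
  (UB.sum Finset.univ fun i _ => UB.sum Finset.univ fun j _ =>
    (ub_B_t k i j).mul_t (ub_B_t k i j)).congr fun a x => by simp only [hsq, sq]

/-- `|Dᵏt| ≤ C t` -/
theorem ub_t_t (k : ℕ) : UB (fun a : SS n => tt a.1) k fun a => tt a.1 := by
  have h0 : UB (fun a : SS n => tt a.1) 0 fun a => tt a.1 :=
    ⟨fun a => a.2.tt_sm, 1, zero_le_one, fun a x => by
      rw [one_mul, abs_of_nonneg (a.2.tt_nonneg x)]⟩
  induction k with
  | zero => exact h0
  | succ k ih =>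
    refine UB.gain wc_t (b := fun l a => bb a.1 l) (ub_b k)
      (((((ub_psi k).bmul ih).mulb ((ub_const 1).sub (ub_t k))).sub (ub_hsq_t k)).const_mul 2) h0
      fun a x => ?_
    have := a.2.Lm_tt x
    rw [lap_eq_Lm a.1]
    unfold qq at this
    linarith

/-- `‖D^{k+2} d‖ ≤ C √t` -/
theorem hk_B (n k : ℕ) : ∃ C : ℝ, 0 ≤ C ∧ ∀ v : EE n → ℝ, Sol v → ∀ x,
    ‖iteratedFDeriv ℝ (k + 2) (dd v) x‖ ≤ C * √(tt v x) := by
  choose C hC h1 using fun j : Fin n =>
    ub_iter_succ (fun a : SS n => a.2.pdv_dd_sm j) fun i => ub_B_t k i j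
  refine ⟨∑ j, C j, Finset.sum_nonneg fun j _ => hC j, fun v h x =>
    (norm_iter_succ_le h.dd_sm (k + 1) x).trans ?_⟩
  rw [Finset.sum_mul]
  exact Finset.sum_le_sum fun j _ => h1 j ⟨v, h⟩ x

/-- `‖Dᵏ t‖ ≤ C t` -/
theorem hk_t (n k : ℕ) : ∃ C : ℝ, 0 ≤ C ∧ ∀ v : EE n → ℝ, Sol v → ∀ x,
    ‖iteratedFDeriv ℝ k (tt v) x‖ ≤ C * tt v x := by
  obtain ⟨C, hC, h1⟩ := (ub_t_t (n := n) k).iter
  exact ⟨C, hC, fun v h x => h1 ⟨v, h⟩ x⟩

/-- `‖∇ t‖ ≤ C t` -/
theorem hk_grad_t (n : ℕ) : ∃ C : ℝ, 0 ≤ C ∧ ∀ v : EE n → ℝ, Sol v → ∀ x,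
    ‖∇ (tt v) x‖ ≤ C * tt v x := by
  obtain ⟨C, hC, h1⟩ := hk_t n 1
  exact ⟨C, hC, fun v h x => by simpa [norm_grad] using h1 v h x⟩

/-- sharp growth of `q = ψ t` -/
theorem hk_q_far (n : ℕ) : ∃ K : ℝ, 0 ≤ K ∧ ∀ v : EE n → ℝ, Sol v → ∀ x y,
    qq v x ≤ K * (1 + dist x y) ^ (n / 2 : ℝ) * Real.exp (Real.sqrt 2 * dist x y) * qq v y := by
  obtain ⟨A, hA, h1⟩ := hk_q n
  obtain ⟨K, hK, h2⟩ := harnack_far n (μ := 2) two_pos hA
  obtain ⟨M3, p3, b3⟩ := (ub_q (n := n) 2).bd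
  obtain ⟨M4, p4, b4⟩ := (ub_q (n := n) 2).lap.bd
  refine ⟨K, hK, fun v h => h2 _ (M3 + M4) (contDiff_infty.1 h.qq_sm 2)
    (fun z => (b3 ⟨v, h⟩ z).trans (by linarith)) (fun z => (b4 ⟨v, h⟩ z).trans (by linarith))
    h.qq_nonneg h.lap_qq_le fun x y hy => le_trans ?_ (h1 v h x y hy)⟩
  have := mul_nonneg (h.psi_pos y).le (hsq_nonneg (dd v) y)
  unfold qq
  nlinarith

/-- growth of `q` at any rate above `√2` -/
theorem hk_q_rate (n : ℕ) {a : ℝ} (ha : Real.sqrt 2 < a) : ∃ K : ℝ, 0 ≤ K ∧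
    ∀ v : EE n → ℝ, Sol v → ∀ x y, qq v x ≤ K * Real.exp (a * dist x y) * qq v y := by
  obtain ⟨K, hK, h1⟩ := hk_q_far n
  obtain ⟨L, hL, h2⟩ := poly_le_exp (n / 2 : ℝ) (by positivity) (sub_pos.2 ha)
  refine ⟨K * L, mul_nonneg hK hL, fun v h x y => (h1 v h x y).trans
    (mul_le_mul_of_nonneg_right ?_ (h.qq_nonneg y))⟩
  rw [show a * dist x y = (a - Real.sqrt 2) * dist x y + Real.sqrt 2 * dist x y by ring,
    Real.exp_add, ← mul_assoc, mul_assoc K L]
  have := h2 _ (dist_nonneg (x := x) (y := y))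
  gcongr

/-- growth of `t`, with the change of `d` separated -/
theorem hk_t_rate' (n : ℕ) {a : ℝ} (ha : Real.sqrt 2 < a) : ∃ K : ℝ, 0 ≤ K ∧
    ∀ v : EE n → ℝ, Sol v → ∀ x y,
      tt v x ≤ K * Real.exp (a * dist x y + Real.sqrt 2 * |dd v y - dd v x|) * tt v y := by
  obtain ⟨K, hK, h1⟩ := hk_q_rate n ha
  refine ⟨K, hK, fun v h x y => le_of_mul_le_mul_left ((h1 v h x y).trans ?_) (h.psi_pos x)⟩
  have := mul_le_mul_of_nonneg_left (h.psi_le_dd y x)
    (mul_nonneg (mul_nonneg hK (Real.exp_pos (a * dist x y)).le) (h.tt_nonneg y))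
  rw [Real.exp_add]
  unfold qq
  nlinarith

/-- growth of `t` at any rate above `2√2` -/
theorem hk_t_rate (n : ℕ) {a : ℝ} (ha : 2 * Real.sqrt 2 < a) : ∃ K : ℝ, 0 ≤ K ∧
    ∀ v : EE n → ℝ, Sol v → ∀ x y, tt v x ≤ K * Real.exp (a * dist x y) * tt v y := by
  obtain ⟨K, hK, h1⟩ := hk_t_rate' n (a := a - Real.sqrt 2) (by linarith)
  refine ⟨K, hK, fun v h x y => (h1 v h x y).trans (mul_le_mul_of_nonneg_right
    (mul_le_mul_of_nonneg_left (Real.exp_le_exp.2 ?_) hK) (h.tt_nonneg y))⟩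
  have h2 := h.abs_dd_sub_le y x
  rw [← dist_eq_norm, dist_comm] at h2
  nlinarith [sqrt2_pos]

end

end Crest.Agent.N067
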