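import Crest.Agent.R077.Green

-- ▼ part N067/A/Ker1
section

/-!
Row 67, basics (helper2): the heat kernel `hk s z = (4πs)^{-n/2} exp(-|z|²/4s)` on `ℝⁿ`.
-/

set_option autoImplicit false

open MeasureTheory Laplacian InnerProductSpace Topology Filter Set
open scoped RealInnerProductSpace ContDiff

namespace Crest.Agent.N067.Ker

open Crest.Agent.R077

noncomputable section

variable {n : ℕ}

/-- the heat kernel -/
def hk (s : ℝ) (z : EE n) : ℝ :=
  (4 * Real.pi * s) ^ (-(n / 2 : ℝ)) * Real.exp (-‖z‖ ^ 2 / (4 * s))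

/-- `∂_s hk = Δ hk = lf · hk` -/
def lf (s : ℝ) (z : EE n) : ℝ := ‖z‖ ^ 2 / (4 * s ^ 2) - n / (2 * s)

theorem hk_pos {s : ℝ} (hs : 0 < s) (z : EE n) : 0 < hk s z := by
  unfold hk
  have := Real.pi_pos
  positivity

theorem hk_neg (s : ℝ) (z : EE n) : hk s (-z) = hk s z := by simp [hk]

theorem contDiff_hk (s : ℝ) {m : ℕ∞} : ContDiff ℝ m (hk s : EE n → ℝ) := by
  unfold hk
  exact contDiff_const.mul (Real.contDiff_exp.comp (((contDiff_norm_sq ℝ).neg).div_const _))

theorem continuous_hk (s : ℝ) : Continuous (hk s : EE n → ℝ) :=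
  (contDiff_hk s (m := 0)).continuous

theorem measurable_hk : Measurable (fun p : ℝ × EE n => hk p.1 p.2) := by
  unfold hk
  fun_prop


theorem hasFDerivAt_hk {s : ℝ} (z : EE n) :
    HasFDerivAt (hk s) ((-(hk s z) / (2 * s)) • innerSL ℝ z) z := by
  have h1 : HasFDerivAt (fun y : EE n => ‖y‖ ^ 2) (2 • innerSL ℝ z) z := by
    simpa using (hasStrictFDerivAt_norm_sq z).hasFDerivAt
  have h2 := (((h1.neg.mul_const (4 * s)⁻¹)).exp).const_mul ((4 * Real.pi * s) ^ (-(n / 2 : ℝ)))
  have e : (hk s : EE n → ℝ) = fun y => (4 * Real.pi * s) ^ (-(n / 2 : ℝ)) *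
      Real.exp ((-fun y : EE n => ‖y‖ ^ 2) y * (4 * s)⁻¹) := by
    funext y
    simp [hk, div_eq_mul_inv]
  refine (e ▸ h2).congr_fderiv ?_
  ext v
  simp only [hk, smul_apply, innerSL_apply_apply, smul_eq_mul, neg_apply, Pi.neg_apply,
    div_eq_mul_inv, two_smul, add_apply, mul_inv]
  ring

theorem pdv_hk (s : ℝ) (i : Fin n) (z : EE n) : pdv i (hk s) z = -(z i / (2 * s)) * hk s z := by
  unfold pdv
  rw [(hasFDerivAt_hk z).fderiv]
  simp [EuclideanSpace.inner_single_right]
  ring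

theorem pdv_coord (i j : Fin n) (z : EE n) :
    pdv i (fun y : EE n => y j) z = if j = i then 1 else 0 := by
  unfold pdv
  have : (fun y : EE n => y j) = (EuclideanSpace.proj j : EE n →L[ℝ] ℝ) := rfl
  rw [this, ContinuousLinearMap.fderiv]
  simp

theorem differentiable_coord (j : Fin n) : Differentiable ℝ (fun y : EE n => y j) :=
  (EuclideanSpace.proj j : EE n →L[ℝ] ℝ).differentiable

theorem lap_hk (s : ℝ) (z : EE n) : (Δ (hk s)) z = lf s z * hk s z := by
  rw [lap_eq (contDiff_hk s (m := 2)).contDiffAt]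
  have hd : Differentiable ℝ (hk s : EE n → ℝ) :=
    (contDiff_hk s (m := 1)).differentiable (by norm_num)
  have h : ∀ i, pdv i (pdv i (hk s)) z
      = (z i ^ 2 / (4 * s ^ 2) - 1 / (2 * s)) * hk s z := by
    intro i
    have h1 : pdv i (hk s : EE n → ℝ) = fun y => (-(2 * s)⁻¹ * y i) * hk s y := by
      funext y
      rw [pdv_hk]
      ring
    rw [h1, pdv_mul (f := fun y : EE n => -(2 * s)⁻¹ * y i)
      (((differentiable_coord i) z).const_mul _) (hd z), pdv_const_mul (differentiable_coord i z),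
      pdv_coord, pdv_hk]
    simp only [if_true]
    ring
  simp_rw [h]
  rw [← Finset.sum_mul, Finset.sum_sub_distrib, ← Finset.sum_div, lf,
    EuclideanSpace.real_norm_sq_eq]
  simp only [Finset.sum_const, Finset.card_univ, Fintype.card_fin, nsmul_eq_mul]
  ring

theorem hasDerivAt_hk {s : ℝ} (hs : 0 < s) (z : EE n) :
    HasDerivAt (fun t => hk t z) (lf s z * hk s z) s := by
  have hp : 0 < 4 * Real.pi * s := by have := Real.pi_pos; positivity
  have h1 : HasDerivAt (fun t : ℝ => (4 * Real.pi * t) ^ (-(n / 2 : ℝ)))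
      (4 * Real.pi * (-(n / 2 : ℝ)) * (4 * Real.pi * s) ^ (-(n / 2 : ℝ) - 1)) s := by
    have := ((hasDerivAt_id s).const_mul (4 * Real.pi)).rpow_const (p := -(n / 2 : ℝ))
      (Or.inl hp.ne')
    simpa using this
  have h2 : HasDerivAt (fun t : ℝ => -‖z‖ ^ 2 / (4 * t)) (‖z‖ ^ 2 / (4 * s ^ 2)) s := by
    have h4 : (4 * s) ≠ 0 := by positivity
    have := (hasDerivAt_const s (-‖z‖ ^ 2)).div ((hasDerivAt_id s).const_mul 4) h4
    refine this.congr_deriv ?_
    simp only [id]
    field_simp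
    ring
  have h3 := h1.mul h2.exp
  refine h3.congr_deriv ?_
  rw [Real.rpow_sub_one hp.ne']
  unfold lf hk
  have := Real.pi_pos
  field_simp
  ring

theorem integral_hk {s : ℝ} (hs : 0 < s) : ∫ z : EE n, hk s z = 1 := by
  have hp : 0 < 4 * Real.pi * s := by have := Real.pi_pos; positivity
  have h := GaussianFourier.integral_rexp_neg_mul_sq_norm (V := EE n) (b := (4 * s)⁻¹)
    (by positivity)
  unfold hk
  rw [integral_const_mul]
  have e : ∀ z : EE n, -‖z‖ ^ 2 / (4 * s) = -(4 * s)⁻¹ * ‖z‖ ^ 2 := fun z => by ring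
  simp_rw [e]
  rw [h, finrank_euclideanSpace, Fintype.card_fin,
    show Real.pi / (4 * s)⁻¹ = 4 * Real.pi * s by field_simp, ← Real.rpow_add hp]
  simp

theorem integrable_hk {s : ℝ} (hs : 0 < s) : Integrable (hk s : EE n → ℝ) :=
  Integrable.of_integral_ne_zero (by rw [integral_hk hs]; norm_num)

/-- change of the time parameter: a Gaussian weight is absorbed. -/
theorem hk_mul_exp {s θ : ℝ} (hs : 0 < s) (hθ : θ < 1) (z : EE n) :
    hk s z * Real.exp (θ * ‖z‖ ^ 2 / (4 * s)) = (1 - θ) ^ (-(n / 2 : ℝ)) * hk (s / (1 - θ)) z := by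
  have h1 : 0 < 1 - θ := by linarith
  have hp : 0 < 4 * Real.pi * s := by have := Real.pi_pos; positivity
  unfold hk
  rw [show 4 * Real.pi * (s / (1 - θ)) = (4 * Real.pi * s) / (1 - θ) by ring,
    Real.div_rpow hp.le h1.le, mul_assoc, ← Real.exp_add]
  have h2 : (1 - θ) ^ (-(n / 2 : ℝ)) ≠ 0 := (Real.rpow_pos_of_pos h1 _).ne'
  rw [show -‖z‖ ^ 2 / (4 * s) + θ * ‖z‖ ^ 2 / (4 * s) = -‖z‖ ^ 2 / (4 * (s / (1 - θ))) by
    field_simp; ring]
  field_simp

/-- exponential weight: `hk s z e^{a|z|} ≤ C e^{a² s/θ} hk (s/(1-θ)) z`. -/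
theorem hk_mul_exp_le {s θ : ℝ} (hs : 0 < s) (hθ0 : 0 < θ) (hθ : θ < 1) (a : ℝ) (z : EE n) :
    hk s z * Real.exp (a * ‖z‖) ≤
      (1 - θ) ^ (-(n / 2 : ℝ)) * Real.exp (a ^ 2 * s / θ) * hk (s / (1 - θ)) z := by
  have h : a * ‖z‖ ≤ θ * ‖z‖ ^ 2 / (4 * s) + a ^ 2 * s / θ := by
    have : θ * ‖z‖ ^ 2 / (4 * s) + a ^ 2 * s / θ - a * ‖z‖
        = (θ * ‖z‖ - 2 * a * s) ^ 2 / (4 * s * θ) := by
      field_simp
      ring
    have h2 : 0 ≤ (θ * ‖z‖ - 2 * a * s) ^ 2 / (4 * s * θ) := by positivity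
    linarith
  calc hk s z * Real.exp (a * ‖z‖)
      ≤ hk s z * Real.exp (θ * ‖z‖ ^ 2 / (4 * s) + a ^ 2 * s / θ) :=
        mul_le_mul_of_nonneg_left (Real.exp_le_exp.2 h) (hk_pos hs z).le
    _ = _ := by rw [Real.exp_add, ← mul_assoc, hk_mul_exp hs hθ]; ring


/-- linear weight -/
theorem norm_mul_hk_le {s θ : ℝ} (hs : 0 < s) (hθ0 : 0 < θ) (hθ : θ < 1) (z : EE n) :
    ‖z‖ * hk s z ≤ √(s / θ) * (1 - θ) ^ (-(n / 2 : ℝ)) * hk (s / (1 - θ)) z := by
  have hq : 0 < √(s / θ) := Real.sqrt_pos.2 (by positivity)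
  have hq2 : √(s / θ) ^ 2 = s / θ := Real.sq_sqrt (by positivity)
  have h : ‖z‖ ≤ √(s / θ) * Real.exp (θ * ‖z‖ ^ 2 / (4 * s)) := by
    have h1 := Real.add_one_le_exp (θ * ‖z‖ ^ 2 / (4 * s))
    have h3 : θ * ‖z‖ ^ 2 / (4 * s) = (‖z‖ / √(s / θ)) ^ 2 / 4 := by
      rw [div_pow, hq2]
      field_simp
    have h4 : ‖z‖ / √(s / θ) ≤ Real.exp (θ * ‖z‖ ^ 2 / (4 * s)) := by
      nlinarith [sq_nonneg (‖z‖ / √(s / θ) - 2)]
    rwa [div_le_iff₀ hq, mul_comm] at h4
  have h2 := mul_le_mul_of_nonneg_right h (hk_pos hs z).le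
  rw [mul_assoc, mul_comm (Real.exp _), hk_mul_exp hs hθ] at h2
  rw [mul_assoc]
  exact h2

/-- scaling of the heat semigroup -/
theorem integral_hk_scale {s : ℝ} (hs : 0 < s) (f : EE n → ℝ) :
    ∫ z, hk s z * f z = ∫ y, hk 1 y * f (√s • y) := by
  have hq : 0 < √s := Real.sqrt_pos.2 hs
  have h := Measure.integral_comp_smul (volume : Measure (EE n)) (fun z => hk s z * f z) (√s)
  have e : ∀ y : EE n, hk 1 y = (√s) ^ n * hk s (√s • y) := by
    intro y
    unfold hk
    have hp : (0 : ℝ) ≤ 4 * Real.pi := by have := Real.pi_pos; positivity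
    rw [norm_smul, Real.norm_eq_abs, abs_of_pos hq, mul_pow, Real.sq_sqrt hs.le,
      Real.mul_rpow hp hs.le, mul_one,
      show -(s * ‖y‖ ^ 2) / (4 * s) = -‖y‖ ^ 2 / (4 * 1) by field_simp]
    have h2 : (√s) ^ n * s ^ (-(n / 2 : ℝ)) = 1 := by
      rw [Real.sqrt_eq_rpow, ← Real.rpow_natCast, ← Real.rpow_mul hs.le, ← Real.rpow_add hs]
      rw [show (1 / 2 : ℝ) * n + -(n / 2 : ℝ) = 0 by ring, Real.rpow_zero]
    calc _ = (√s) ^ n * s ^ (-(n / 2 : ℝ)) * ((4 * Real.pi) ^ (-(n / 2 : ℝ)) *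
          Real.exp (-‖y‖ ^ 2 / (4 * 1))) := by rw [h2, one_mul]
      _ = _ := by ring
  simp_rw [e, mul_assoc]
  rw [integral_const_mul, h, finrank_euclideanSpace, Fintype.card_fin, smul_eq_mul,
    abs_of_pos (by positivity)]
  field_simp

end

end Crest.Agent.N067.Ker
end

-- ▼ part N067/A/Ker2
section

/-!
Row 67, basics (helper2): Green's identity without compact support and the heat semigroup on
functions of exponential growth.
-/

set_option autoImplicit false

open MeasureTheory Laplacian InnerProductSpace Topology Filter Set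
open scoped RealInnerProductSpace ContDiff

namespace Crest.Agent.N067.Ker

open Crest.Agent.R077

noncomputable section

variable {n : ℕ}

/-- Green's identity when the four products are integrable (no gradient bound on `w`). -/
theorem green_int {a w : EE n → ℝ} (ha : ContDiff ℝ 2 a) (hw : ContDiff ℝ 2 w)
    (h0 : Integrable fun x => a x * w x) (h1 : ∀ i, Integrable fun x => pdv i a x * w x)
    (h2 : Integrable fun x => (Δ a) x * w x) (h3 : Integrable fun x => a x * (Δ w) x) :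
    ∫ x, a x * (Δ w) x = ∫ x, (Δ a) x * w x := by
  obtain ⟨C, hC0, hC⟩ := exists_chi1_bound (n := n)
  set η : ℕ → EE n → ℝ := fun k x => 1 - chi ((k : ℝ) + 1) x with hη
  have hk1 : ∀ k : ℕ, (1 : ℝ) ≤ (k : ℝ) + 1 := fun k => by
    have : (0 : ℝ) ≤ k := Nat.cast_nonneg k
    linarith
  have hk0 : ∀ k : ℕ, (0 : ℝ) < (k : ℝ) + 1 := fun k => lt_of_lt_of_le one_pos (hk1 k)
  have hinv : ∀ k : ℕ, |((k : ℝ) + 1)⁻¹| ≤ 1 := fun k => by
    rw [abs_of_pos (inv_pos.2 (hk0 k))]
    exact inv_le_one_of_one_le₀ (hk1 k)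
  have ηc : ∀ k, ContDiff ℝ 2 (η k) := fun k => contDiff_const.sub (contDiff_chi (m := 2) _)
  have ηb : ∀ k x, |η k x| ≤ 1 := fun k x => by
    have := chi_nonneg ((k : ℝ) + 1) x
    have := chi_le_one ((k : ℝ) + 1) x
    simp only [hη]
    rw [abs_le]
    constructor <;> linarith
  have ηp : ∀ k i, pdv i (η k) = fun x => -pdv i (chi ((k : ℝ) + 1)) x := fun k i => by
    funext x
    simp only [hη, pdv]
    rw [fderiv_const_sub]
    rfl
  have ηp1 : ∀ k i x, |pdv i (η k) x| ≤ C := fun k i x => by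
    rw [ηp, abs_neg, pdv_chi, abs_mul]
    calc _ ≤ 1 * C := mul_le_mul (hinv k) (hC i _).1 (abs_nonneg _) zero_le_one
      _ = C := one_mul C
  have ηp2 : ∀ k x, |(Δ (η k)) x| ≤ n * C := fun k x => by
    rw [lap_eq (ηc k).contDiffAt]
    refine (Finset.abs_sum_le_sum_abs _ _).trans ?_
    have : ∀ i : Fin n, |pdv i (pdv i (η k)) x| ≤ C := fun i => by
      have e : pdv i (pdv i (η k)) x = -pdv i (pdv i (chi ((k : ℝ) + 1))) x := by
        rw [ηp]
        simp only [pdv]
        rw [fderiv_fun_neg]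
        rfl
      rw [e, abs_neg, pdv2_chi, abs_mul, abs_mul]
      calc _ ≤ 1 * (1 * C) := mul_le_mul (hinv k)
            (mul_le_mul (hinv k) (hC i _).2 (abs_nonneg _) zero_le_one) (by positivity) zero_le_one
        _ = C := by ring
    calc _ ≤ ∑ _i : Fin n, C := Finset.sum_le_sum fun i _ => this i
      _ = n * C := by simp
  have ηs : ∀ k, HasCompactSupport (η k) := fun k => by
    refine HasCompactSupport.intro (isCompact_closedBall (0 : EE n) (2 * ((k : ℝ) + 1))) ?_
    intro x hx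
    simp only [hη]
    rw [chi_one (hk0 k) (le_of_lt (by simpa using hx)), sub_self]
  have ηe : ∀ x : EE n, ∀ᶠ k : ℕ in atTop, (η k) =ᶠ[𝓝 x] fun _ => 1 := fun x => by
    obtain ⟨N, hN⟩ := exists_nat_gt ‖x‖
    filter_upwards [eventually_ge_atTop N] with k hk
    have hlt : ‖x‖ < (k : ℝ) + 1 := by
      have : (N : ℝ) ≤ k := by exact_mod_cast hk
      linarith
    have : {y : EE n | ‖y‖ < (k : ℝ) + 1} ∈ 𝓝 x :=
      (isOpen_lt continuous_norm continuous_const).mem_nhds hlt
    filter_upwards [this] with y hy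
    simp only [hη]
    rw [chi_zero (hk0 k) (le_of_lt hy), sub_zero]
  have hb : ∀ k, ContDiff ℝ 2 fun x => a x * η k x := fun k => ha.mul (ηc k)
  have key : ∀ k, ∫ x, w x * (Δ fun y => a y * η k y) x = ∫ x, (Δ w) x * (a x * η k x) :=
    fun k => green_smooth hw (hb k) (ηs k).mul_left
  have L1 : Tendsto (fun k => ∫ x, (Δ w) x * (a x * η k x)) atTop (𝓝 (∫ x, a x * (Δ w) x)) := by
    refine tendsto_integral_of_dominated_convergence (fun x => ‖a x * (Δ w) x‖)
      (fun k => ((continuous_lap hw).mul (hb k).continuous).aestronglyMeasurable) h3.norm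
      (fun k => Eventually.of_forall fun x => ?_) (Eventually.of_forall fun x => ?_)
    · have e : (Δ w) x * (a x * η k x) = (a x * (Δ w) x) * η k x := by ring
      rw [e, norm_mul]
      exact mul_le_of_le_one_right (norm_nonneg _) (ηb k x)
    · refine tendsto_const_nhds.congr' ?_
      filter_upwards [ηe x] with k hk
      rw [hk.eq_of_nhds]
      ring
  have L2 : Tendsto (fun k => ∫ x, w x * (Δ fun y => a y * η k y) x) atTop
      (𝓝 (∫ x, (Δ a) x * w x)) := by
    refine tendsto_integral_of_dominated_convergence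
      (fun x => ‖(Δ a) x * w x‖ + 2 * ∑ i, C * ‖pdv i a x * w x‖ + n * C * ‖a x * w x‖)
      (fun k => (hw.continuous.mul (continuous_lap (hb k))).aestronglyMeasurable)
      ((h2.norm.add ((integrable_finsetSum _ fun i _ => (h1 i).norm.const_mul C).const_mul 2)).add
        (h0.norm.const_mul _))
      (fun k => Eventually.of_forall fun x => ?_) (Eventually.of_forall fun x => ?_)
    · rw [lap_mul ha (ηc k)]
      have e : w x * ((Δ a) x * η k x + 2 * ∑ i, pdv i a x * pdv i (η k) x + a x * (Δ (η k)) x)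
          = ((Δ a) x * w x) * η k x + 2 * ∑ i, (pdv i a x * w x) * pdv i (η k) x
            + (a x * w x) * (Δ (η k)) x := by
        have : ∑ i, (pdv i a x * w x) * pdv i (η k) x = w x * ∑ i, pdv i a x * pdv i (η k) x := by
          rw [Finset.mul_sum]
          exact Finset.sum_congr rfl fun i _ => by ring
        rw [this]
        ring
      rw [e]
      refine (norm_add_le _ _).trans (add_le_add ((norm_add_le _ _).trans (add_le_add ?_ ?_)) ?_)
      · rw [norm_mul]
        exact mul_le_of_le_one_right (norm_nonneg _) (ηb k x)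
      · rw [norm_mul, Real.norm_ofNat]
        refine mul_le_mul_of_nonneg_left ((norm_sum_le _ _).trans (Finset.sum_le_sum fun i _ => ?_))
          (by norm_num)
        rw [norm_mul, mul_comm]
        exact mul_le_mul_of_nonneg_right (ηp1 k i x) (norm_nonneg _)
      · rw [norm_mul, mul_comm]
        exact mul_le_mul_of_nonneg_right (ηp2 k x) (norm_nonneg _)
    · refine tendsto_const_nhds.congr' ?_
      filter_upwards [ηe x] with k hk
      have : (fun y => a y * η k y) =ᶠ[𝓝 x] a := by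
        filter_upwards [hk] with y hy
        rw [hy, mul_one]
      rw [lap_congr_at this]
      ring
  simp_rw [key] at L2
  exact tendsto_nhds_unique L1 L2

/-- exponential growth -/
def Gr (a M : ℝ) (f : EE n → ℝ) : Prop := ∀ z, |f z| ≤ M * Real.exp (a * ‖z‖)

theorem Gr.nonneg {a M : ℝ} {f : EE n → ℝ} (h : Gr a M f) : 0 ≤ M := by
  have := (abs_nonneg _).trans (h 0)
  simpa using this

theorem gr_of_bdd {M : ℝ} {f : EE n → ℝ} (h : ∀ z, |f z| ≤ M) : Gr 0 M f := fun z => by
  simpa using h z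

theorem Gr.mono {a b M : ℝ} {f : EE n → ℝ} (h : Gr a M f) (hab : a ≤ b) : Gr b M f := fun z =>
  (h z).trans (mul_le_mul_of_nonneg_left
    (Real.exp_le_exp.2 (mul_le_mul_of_nonneg_right hab (norm_nonneg _))) h.nonneg)

theorem Gr.mul {a b M N : ℝ} {f g : EE n → ℝ} (h : Gr a M f) (h' : Gr b N g) :
    Gr (a + b) (M * N) fun z => f z * g z := fun z => by
  rw [abs_mul, add_mul, Real.exp_add]
  calc _ ≤ (M * Real.exp (a * ‖z‖)) * (N * Real.exp (b * ‖z‖)) :=
        mul_le_mul (h z) (h' z) (abs_nonneg _) ((abs_nonneg _).trans (h z))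
    _ = _ := by ring

theorem Gr.add {a M N : ℝ} {f g : EE n → ℝ} (h : Gr a M f) (h' : Gr a N g) :
    Gr a (M + N) fun z => f z + g z := fun z => by
  rw [add_mul]
  exact (abs_add_le _ _).trans (add_le_add (h z) (h' z))

theorem Gr.const_mul {a M : ℝ} {f : EE n → ℝ} (h : Gr a M f) (c : ℝ) :
    Gr a (|c| * M) fun z => c * f z := fun z => by
  rw [abs_mul, mul_assoc]
  exact mul_le_mul_of_nonneg_left (h z) (abs_nonneg _)

theorem Gr.shift {a M : ℝ} {f : EE n → ℝ} (h : Gr a M f) (ha : 0 ≤ a) (x : EE n) :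
    Gr a (M * Real.exp (a * ‖x‖)) fun z => f (x + z) := fun z => by
  refine (h _).trans ?_
  rw [mul_assoc, ← Real.exp_add, ← mul_add]
  exact mul_le_mul_of_nonneg_left
    (Real.exp_le_exp.2 (mul_le_mul_of_nonneg_left (norm_add_le _ _) ha)) h.nonneg

theorem gr_coord (i : Fin n) : Gr 1 1 fun z : EE n => z i := fun z => by
  have h1 : |z i| ≤ ‖z‖ := by simpa using PiLp.norm_apply_le z i
  have := Real.add_one_le_exp ‖z‖
  simp only [one_mul]
  linarith

theorem gr_lf (s : ℝ) : Gr 1 (2 * |1 / (4 * s ^ 2)| + |n / (2 * s)|) (lf s : EE n → ℝ) := fun z => by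
  have h1 := Real.quadratic_le_exp_of_nonneg (norm_nonneg z)
  have h0 := norm_nonneg z
  have h2 : ‖z‖ ^ 2 ≤ 2 * Real.exp ‖z‖ := by linarith
  have h3 : 1 ≤ Real.exp ‖z‖ := Real.one_le_exp h0
  unfold lf
  refine (abs_sub _ _).trans ?_
  rw [one_mul, add_mul, div_eq_mul_one_div (‖z‖ ^ 2), abs_mul, abs_of_nonneg (sq_nonneg _)]
  have := abs_nonneg (1 / (4 * s ^ 2))
  have := abs_nonneg ((n : ℝ) / (2 * s))
  nlinarith

theorem abs_hk_mul_le {s θ a M : ℝ} (hs : 0 < s) (hθ0 : 0 < θ) (hθ : θ < 1) {f : EE n → ℝ}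
    (h : Gr a M f) (z : EE n) : |hk s z * f z| ≤
      M * ((1 - θ) ^ (-(n / 2 : ℝ)) * Real.exp (a ^ 2 * s / θ)) * hk (s / (1 - θ)) z := by
  rw [abs_mul, abs_of_pos (hk_pos hs z)]
  calc _ ≤ hk s z * (M * Real.exp (a * ‖z‖)) := mul_le_mul_of_nonneg_left (h z) (hk_pos hs z).le
    _ = M * (hk s z * Real.exp (a * ‖z‖)) := by ring
    _ ≤ _ := by
      rw [mul_assoc M]
      exact mul_le_mul_of_nonneg_left (hk_mul_exp_le hs hθ0 hθ a z) h.nonneg

theorem integrable_hk_mul {s a M : ℝ} (hs : 0 < s) {f : EE n → ℝ}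
    (hf : AEStronglyMeasurable f volume) (h : Gr a M f) : Integrable fun z => hk s z * f z := by
  exact Integrable.mono' ((integrable_hk (s := s / (1 - 1 / 2)) (by positivity)).const_mul _)
    ((continuous_hk s).aestronglyMeasurable.mul hf) (Eventually.of_forall fun z =>
      abs_hk_mul_le hs (θ := 1 / 2) (by norm_num) (by norm_num) h z)

theorem integral_abs_hk_mul_le {s θ a M : ℝ} (hs : 0 < s) (hθ0 : 0 < θ) (hθ : θ < 1)
    {f : EE n → ℝ} (h : Gr a M f) :
    ∫ z, |hk s z * f z| ≤ M * ((1 - θ) ^ (-(n / 2 : ℝ)) * Real.exp (a ^ 2 * s / θ)) := by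
  have h1 : 0 < s / (1 - θ) := div_pos hs (by linarith)
  calc _ ≤ ∫ z : EE n, M * ((1 - θ) ^ (-(n / 2 : ℝ)) * Real.exp (a ^ 2 * s / θ)) *
        hk (s / (1 - θ)) z :=
        integral_mono_of_nonneg (Eventually.of_forall fun z => abs_nonneg _)
          ((integrable_hk h1).const_mul _) (Eventually.of_forall (abs_hk_mul_le hs hθ0 hθ h))
    _ = _ := by rw [integral_const_mul, integral_hk h1, mul_one]

/-- the heat semigroup commutes with the Laplacian -/
theorem heat_green {s a M : ℝ} (hs : 0 < s) {w : EE n → ℝ} (hw : ContDiff ℝ 2 w)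
    (h0 : Gr a M w) (h2 : Gr a M (Δ w)) :
    ∫ z, hk s z * (Δ w) z = ∫ z, hk s z * (lf s z * w z) := by
  have mw := hw.continuous.aestronglyMeasurable (μ := volume)
  have clf : Continuous (lf s : EE n → ℝ) := by unfold lf; fun_prop
  have I2 : Integrable fun z => hk s z * (lf s z * w z) :=
    integrable_hk_mul hs (clf.aestronglyMeasurable.mul mw) ((gr_lf s).mul h0)
  rw [green_int (contDiff_hk s (m := 2)) hw (integrable_hk_mul hs mw h0) ?_ ?_
    (integrable_hk_mul hs (continuous_lap hw).aestronglyMeasurable h2)]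
  · congr 1
    funext z
    rw [lap_hk]
    ring
  · intro i
    have := integrable_hk_mul hs
      ((((differentiable_coord i).continuous.mul hw.continuous).aestronglyMeasurable).const_mul
        (-(2 * s)⁻¹)) (((gr_coord i).mul h0).const_mul (-(2 * s)⁻¹))
    refine this.congr (Eventually.of_forall fun z => ?_)
    simp only [pdv_hk, Pi.mul_apply]
    ring
  · refine I2.congr (Eventually.of_forall fun z => ?_)
    simp only [lap_hk]
    ring

theorem hk_le_hk {s₁ t s₂ : ℝ} (h1 : 0 < s₁) (h2 : s₁ ≤ t) (h3 : t ≤ s₂) (z : EE n) :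
    hk t z ≤ (s₁ / s₂) ^ (-(n / 2 : ℝ)) * hk s₂ z := by
  have hp := Real.pi_pos
  have ht : 0 < t := lt_of_lt_of_le h1 h2
  have hs : 0 < s₂ := lt_of_lt_of_le ht h3
  unfold hk
  rw [← mul_assoc, ← Real.mul_rpow (by positivity) (by positivity),
    show s₁ / s₂ * (4 * Real.pi * s₂) = 4 * Real.pi * s₁ by field_simp]
  refine mul_le_mul (Real.rpow_le_rpow_of_nonpos (by positivity) (by nlinarith) ?_)
    (Real.exp_le_exp.2 ?_) (by positivity) (by positivity)
  · have : (0 : ℝ) ≤ n := Nat.cast_nonneg n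
    linarith
  · rw [neg_div, neg_div, neg_le_neg_iff]
    exact div_le_div_of_nonneg_left (sq_nonneg _) (by positivity) (by linarith)

theorem hasDerivAt_heat {s a M : ℝ} (hs : 0 < s) {w : EE n → ℝ} (hw : Continuous w)
    (h0 : Gr a M w) :
    HasDerivAt (fun t => ∫ z, hk t z * w z) (∫ z, hk s z * (lf s z * w z)) s := by
  have mw := hw.aestronglyMeasurable (μ := volume)
  have clf : Continuous (lf s : EE n → ℝ) := by unfold lf; fun_prop
  set q : EE n → ℝ := fun z => ‖z‖ ^ 2 / (4 * (s / 2) ^ 2) + n / (2 * (s / 2)) with hq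
  have cq : Continuous q := by simp only [hq]; fun_prop
  have gq : Gr 1 (2 * |1 / (4 * (s / 2) ^ 2)| + |n / (2 * (s / 2))| + |2 * (n / (2 * (s / 2)))| * 1)
      q := by
    have h1 : Gr 1 1 fun _ : EE n => (1 : ℝ) :=
      (gr_of_bdd (M := 1) fun _ => by simp).mono zero_le_one
    have := (gr_lf (n := n) (s / 2)).add (h1.const_mul (2 * (n / (2 * (s / 2)))))
    intro z
    have e : q z = lf (s / 2) z + 2 * (n / (2 * (s / 2))) * 1 := by simp only [hq, lf]; ring
    rw [e]
    exact this z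
  refine (hasDerivAt_integral_of_dominated_loc_of_deriv_le (s := Icc (s / 2) (2 * s))
    (F := fun t z => hk t z * w z) (F' := fun t z => hk t z * (lf t z * w z))
    (bound := fun z => (s / 2 / (2 * s)) ^ (-(n / 2 : ℝ)) * ‖hk (2 * s) z * (q z * w z)‖)
    (Icc_mem_nhds (by linarith) (by linarith))
    (Eventually.of_forall fun t => (continuous_hk t).aestronglyMeasurable.mul mw)
    (integrable_hk_mul hs mw h0)
    ((continuous_hk s).aestronglyMeasurable.mul (clf.aestronglyMeasurable.mul mw))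
    (Eventually.of_forall fun z t ht => ?_)
    ((integrable_hk_mul (by linarith) (cq.aestronglyMeasurable.mul mw) (gq.mul h0)).norm.const_mul _)
    (Eventually.of_forall fun z t ht => ?_)).2
  · have ht0 : 0 < t := by linarith [ht.1]
    have h1 := hk_le_hk (by linarith : 0 < s / 2) ht.1 ht.2 z
    have h2 : |lf t z| ≤ q z := by
      unfold lf
      refine (abs_sub _ _).trans (add_le_add ?_ ?_)
      · rw [abs_of_nonneg (by positivity)]
        refine div_le_div_of_nonneg_left (sq_nonneg _) (by positivity) ?_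
        nlinarith [ht.1]
      · rw [abs_of_nonneg (by positivity)]
        exact div_le_div_of_nonneg_left (Nat.cast_nonneg _) (by positivity) (by linarith [ht.1])
    have hq0 : 0 ≤ q z := (abs_nonneg _).trans h2
    simp only [norm_mul, Real.norm_eq_abs]
    rw [abs_of_pos (hk_pos ht0 z), abs_of_pos (hk_pos (by linarith) z), abs_of_nonneg hq0,
      ← mul_assoc ((s / 2 / (2 * s)) ^ _)]
    exact mul_le_mul h1 (mul_le_mul_of_nonneg_right h2 (abs_nonneg _)) (by positivity)
      ((hk_pos ht0 z).le.trans h1)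
  · have ht0 : 0 < t := by linarith [ht.1]
    refine ((hasDerivAt_hk ht0 z).mul_const (w z)).congr_deriv ?_
    ring

/-- the semigroup in scaled form is continuous at time `0` -/
theorem continuousWithinAt_heat {a M : ℝ} (ha : 0 ≤ a) {w : EE n → ℝ} (hw : Continuous w)
    (h0 : Gr a M w) : ContinuousWithinAt (fun s : ℝ => ∫ y, hk 1 y * w (√s • y)) (Ici 0) 0 := by
  have g1 : Gr a M fun y : EE n => M * Real.exp (a * ‖y‖) := fun y => by
    rw [abs_of_nonneg (mul_nonneg h0.nonneg (Real.exp_pos _).le)]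
  refine continuousWithinAt_of_dominated (bound := fun y => hk 1 y * (M * Real.exp (a * ‖y‖)))
    (Eventually.of_forall fun s => ((continuous_hk 1).mul
      (hw.comp (continuous_const_smul _))).aestronglyMeasurable) ?_
    (integrable_hk_mul one_pos (by fun_prop) g1) (Eventually.of_forall fun y => ?_)
  · have : Iio (1 : ℝ) ∈ 𝓝[Ici 0] 0 := mem_nhdsWithin_of_mem_nhds (Iio_mem_nhds one_pos)
    filter_upwards [this] with s hs
    refine Eventually.of_forall fun y => ?_
    rw [norm_mul, Real.norm_eq_abs, abs_of_pos (hk_pos one_pos y)]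
    refine mul_le_mul_of_nonneg_left ((h0 _).trans (mul_le_mul_of_nonneg_left
      (Real.exp_le_exp.2 (mul_le_mul_of_nonneg_left ?_ ha)) h0.nonneg)) (hk_pos one_pos y).le
    rw [norm_smul, Real.norm_eq_abs, abs_of_nonneg (Real.sqrt_nonneg _)]
    exact mul_le_of_le_one_left (norm_nonneg _) (Real.sqrt_le_one.2 (le_of_lt hs))
  · refine Continuous.continuousWithinAt ?_
    fun_prop

end

end Crest.Agent.N067.Ker
end

-- ▼ part N067/A/Ker3

/-!
Row 67, basics (helper2): the resolvent kernel `Gk μ = (μ - Δ)⁻¹ = ∫₀^∞ e^{-μ s} hk s ds` and the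
representation `w x = ∫ Gk μ z (μ w - Δ w)(x + z) dz` for `C²` functions of growth `e^{a|x|}`, `a² < μ`.
-/

set_option autoImplicit false

open MeasureTheory Laplacian InnerProductSpace Topology Filter Set
open scoped RealInnerProductSpace ContDiff

namespace Crest.Agent.N067.Ker

open Crest.Agent.R077

noncomputable section

variable {n : ℕ}

/-- the kernel of `(μ - Δ)⁻¹` on `ℝⁿ` -/
def Gk (μ : ℝ) (z : EE n) : ℝ := ∫ s in Ioi (0 : ℝ), Real.exp (-μ * s) * hk s z

theorem Gk_nonneg (μ : ℝ) (z : EE n) : 0 ≤ Gk μ z :=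
  setIntegral_nonneg measurableSet_Ioi fun _ hs =>
    mul_nonneg (Real.exp_pos _).le (hk_pos hs z).le

theorem Gk_congr_norm (μ : ℝ) {y z : EE n} (h : ‖y‖ = ‖z‖) : Gk μ y = Gk μ z := by
  simp [Gk, hk, h]

theorem Gk_neg (μ : ℝ) (z : EE n) : Gk μ (-z) = Gk μ z := Gk_congr_norm μ (norm_neg z)

theorem Gk_sub_comm (μ : ℝ) (x y : EE n) : Gk μ (x - y) = Gk μ (y - x) :=
  Gk_congr_norm μ (norm_sub_rev x y)

theorem measurable_ehk (μ : ℝ) :
    Measurable fun p : ℝ × EE n => Real.exp (-μ * p.1) * hk p.1 p.2 :=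
  (by fun_prop : Measurable fun p : ℝ × EE n => Real.exp (-μ * p.1)).mul measurable_hk

theorem measurable_Gk (μ : ℝ) : Measurable (Gk μ : EE n → ℝ) :=
  ((measurable_ehk μ).stronglyMeasurable.integral_prod_left'
    (μ := volume.restrict (Ioi (0 : ℝ)))).measurable

theorem exists_theta {μ a : ℝ} (hμ : 0 < μ) (h : a ^ 2 < μ) :
    ∃ θ : ℝ, 0 < θ ∧ θ < 1 ∧ a ^ 2 / θ < μ := by
  have h0 := sq_nonneg a
  refine ⟨(a ^ 2 + μ) / (2 * μ), by positivity, ?_, ?_⟩
  · rw [div_lt_one (by positivity)]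
    linarith
  · rw [div_lt_iff₀ (by positivity),
      show μ * ((a ^ 2 + μ) / (2 * μ)) = (a ^ 2 + μ) / 2 by field_simp]
    linarith

theorem exp_integral_abs_le {μ s θ a M : ℝ} (hs : 0 < s) (hθ0 : 0 < θ) (hθ : θ < 1)
    {f : EE n → ℝ} (h : Gr a M f) :
    Real.exp (-μ * s) * ∫ z, |hk s z * f z| ≤
      M * (1 - θ) ^ (-(n / 2 : ℝ)) * Real.exp (-(μ - a ^ 2 / θ) * s) := by
  refine (mul_le_mul_of_nonneg_left (integral_abs_hk_mul_le hs hθ0 hθ h)
    (Real.exp_pos _).le).trans (le_of_eq ?_)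
  rw [show -(μ - a ^ 2 / θ) * s = -μ * s + a ^ 2 * s / θ by ring, Real.exp_add]
  ring

theorem integrable_prod_hk {μ a M : ℝ} (hμ : 0 < μ) (ha : a ^ 2 < μ) {f : EE n → ℝ}
    (hf : AEStronglyMeasurable f volume) (h : Gr a M f) :
    Integrable (fun p : ℝ × EE n => Real.exp (-μ * p.1) * hk p.1 p.2 * f p.2)
      ((volume.restrict (Ioi (0 : ℝ))).prod volume) := by
  obtain ⟨θ, hθ0, hθ, hκ⟩ := exists_theta hμ ha
  have hm : AEStronglyMeasurable (fun p : ℝ × EE n => Real.exp (-μ * p.1) * hk p.1 p.2 * f p.2)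
      ((volume.restrict (Ioi (0 : ℝ))).prod volume) :=
    (measurable_ehk μ).aestronglyMeasurable.mul hf.comp_snd
  rw [integrable_prod_iff hm]
  constructor
  · filter_upwards [ae_restrict_mem measurableSet_Ioi] with s hs
    simp_rw [mul_assoc]
    exact (integrable_hk_mul hs hf h).const_mul _
  · refine Integrable.mono' ((exp_neg_integrableOn_Ioi 0 (sub_pos.2 hκ)).const_mul
      (M * (1 - θ) ^ (-(n / 2 : ℝ)))) hm.norm.integral_prod_right' ?_
    filter_upwards [ae_restrict_mem measurableSet_Ioi] with s hs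
    rw [Real.norm_eq_abs, abs_of_nonneg (integral_nonneg fun _ => norm_nonneg _)]
    refine le_trans (le_of_eq ?_) (exp_integral_abs_le (μ := μ) hs hθ0 hθ h)
    rw [← integral_const_mul]
    congr 1
    funext z
    rw [mul_assoc, norm_mul, Real.norm_eq_abs, Real.norm_eq_abs, abs_of_pos (Real.exp_pos _)]

theorem Gk_mul_eq (μ : ℝ) (f : EE n → ℝ) (z : EE n) :
    Gk μ z * f z = ∫ s in Ioi (0 : ℝ), Real.exp (-μ * s) * hk s z * f z := by
  rw [integral_mul_const, Gk]

theorem integrable_Gk_mul {μ a M : ℝ} (hμ : 0 < μ) (ha : a ^ 2 < μ) {f : EE n → ℝ}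
    (hf : AEStronglyMeasurable f volume) (h : Gr a M f) : Integrable fun z => Gk μ z * f z := by
  simp_rw [Gk_mul_eq]
  exact (integrable_prod_hk hμ ha hf h).integral_prod_right

theorem integral_Gk_mul {μ a M : ℝ} (hμ : 0 < μ) (ha : a ^ 2 < μ) {f : EE n → ℝ}
    (hf : AEStronglyMeasurable f volume) (h : Gr a M f) :
    ∫ z, Gk μ z * f z = ∫ s in Ioi (0 : ℝ), Real.exp (-μ * s) * ∫ z, hk s z * f z := by
  simp_rw [Gk_mul_eq]
  rw [← integral_integral_swap (f := fun s z => Real.exp (-μ * s) * hk s z * f z)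
    (integrable_prod_hk hμ ha hf h)]
  simp_rw [mul_assoc, integral_const_mul]

theorem gr_one : Gr 0 1 fun _ : EE n => (1 : ℝ) := gr_of_bdd fun _ => by simp

theorem integrable_Gk {μ : ℝ} (hμ : 0 < μ) : Integrable (Gk μ : EE n → ℝ) := by
  simpa using integrable_Gk_mul (n := n) hμ (a := 0) (by simpa using hμ)
    aestronglyMeasurable_const gr_one

/-- exponential moments of the kernel -/
theorem integrable_Gk_exp {μ a : ℝ} (hμ : 0 < μ) (ha : a ^ 2 < μ) :
    Integrable fun z : EE n => Gk μ z * Real.exp (a * ‖z‖) :=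
  integrable_Gk_mul hμ ha (M := 1) (by fun_prop) fun z => by
    rw [abs_of_pos (Real.exp_pos _), one_mul]

theorem Gk_pos_ae {μ : ℝ} (hμ : 0 < μ) : ∀ᵐ z : EE n, 0 < Gk μ z := by
  have h := (integrable_prod_hk (n := n) hμ (a := 0) (by simpa using hμ)
    aestronglyMeasurable_const gr_one).prod_left_ae
  filter_upwards [h] with z hz
  simp only [mul_one] at hz
  unfold Gk
  rw [setIntegral_pos_iff_support_of_nonneg_ae ?_ hz]
  · have : Function.support (fun s : ℝ => Real.exp (-μ * s) * hk s z) ∩ Ioi 0 = Ioi 0 := by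
      refine inter_eq_right.2 fun s hs => ?_
      exact (mul_pos (Real.exp_pos _) (hk_pos hs z)).ne'
    rw [this]
    simp
  · filter_upwards [ae_restrict_mem measurableSet_Ioi] with s hs
    exact mul_nonneg (Real.exp_pos _).le (hk_pos hs z).le

/-- representation formula at the origin -/
theorem rep_zero {μ a M : ℝ} (hμ : 0 < μ) (ha0 : 0 ≤ a) (ha : a ^ 2 < μ) {w : EE n → ℝ}
    (hw : ContDiff ℝ 2 w) (h0 : Gr a M w) (h2 : Gr a M (Δ w)) :
    w 0 = ∫ z, Gk μ z * (μ * w z - (Δ w) z) := by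
  obtain ⟨θ, hθ0, hθ, hκ⟩ := exists_theta hμ ha
  have cw := hw.continuous
  have cl := continuous_lap hw
  have cg : Continuous fun z => μ * w z - (Δ w) z := by fun_prop
  have gg : Gr a (|μ| * M + |(-1 : ℝ)| * M) fun z => μ * w z - (Δ w) z := by
    have := (h0.const_mul μ).add (h2.const_mul (-1))
    intro z
    have e : μ * w z - (Δ w) z = μ * w z + -1 * (Δ w) z := by ring
    simp only [e]
    exact this z
  rw [integral_Gk_mul hμ ha cg.aestronglyMeasurable gg]
  set F : ℝ → ℝ := fun s => -(Real.exp (-μ * s) * ∫ y, hk 1 y * w (√s • y)) with hF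
  have hFe : ∀ s, 0 < s → F s = -(Real.exp (-μ * s) * ∫ z, hk s z * w z) := fun s hs => by
    rw [integral_hk_scale hs]
  have key := integral_Ioi_of_hasDerivAt_of_tendsto (f := F) (a := 0) (m := 0)
    (f' := fun s => Real.exp (-μ * s) * ∫ z, hk s z * (μ * w z - (Δ w) z)) ?_ ?_ ?_ ?_
  · rw [key]
    simp only [hF, Real.sqrt_zero, zero_smul, mul_zero, Real.exp_zero, one_mul, sub_neg_eq_add,
      zero_add]
    rw [integral_mul_const, integral_hk one_pos, one_mul]
  · exact (((by fun_prop : Continuous fun s : ℝ => Real.exp (-μ * s)).continuousWithinAt).mul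
      (continuousWithinAt_heat ha0 cw h0)).neg
  · intro s hs
    have hs0 : 0 < s := hs
    have he : HasDerivAt (fun t : ℝ => Real.exp (-μ * t)) (Real.exp (-μ * s) * -μ) s := by
      simpa using ((hasDerivAt_id s).const_mul (-μ)).exp
    have h1 := (he.mul (hasDerivAt_heat hs0 cw h0)).neg
    have h3 : F =ᶠ[𝓝 s] -((fun t : ℝ => Real.exp (-μ * t)) * fun t => ∫ z, hk t z * w z) := by
      filter_upwards [Ioi_mem_nhds hs0] with t ht
      rw [hFe t ht]
      rfl
    refine (h1.congr_of_eventuallyEq h3).congr_deriv ?_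
    rw [← heat_green hs0 hw h0 h2]
    have e : ∫ z, hk s z * (μ * w z - (Δ w) z)
        = μ * (∫ z, hk s z * w z) - ∫ z, hk s z * (Δ w) z := by
      rw [← integral_const_mul, ← integral_sub
        ((integrable_hk_mul hs0 cw.aestronglyMeasurable h0).const_mul μ)
        (integrable_hk_mul hs0 cl.aestronglyMeasurable h2)]
      congr 1
      funext z
      ring
    rw [e]
    ring
  · have := (integrable_prod_hk hμ ha cg.aestronglyMeasurable gg).integral_prod_left
    simp_rw [mul_assoc, integral_const_mul] at this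
    exact this
  · have hl : Tendsto (fun s : ℝ => M * (1 - θ) ^ (-(n / 2 : ℝ)) *
        Real.exp (-(μ - a ^ 2 / θ) * s)) atTop (𝓝 0) := by
      have h1 : Tendsto (fun s : ℝ => -(μ - a ^ 2 / θ) * s) atTop atBot :=
        tendsto_id.const_mul_atTop_of_neg (by linarith)
      simpa using (Real.tendsto_exp_atBot.comp h1).const_mul (M * (1 - θ) ^ (-(n / 2 : ℝ)))
    refine squeeze_zero_norm' ?_ hl
    filter_upwards [Ioi_mem_atTop 0] with s hs
    rw [hFe s hs, norm_neg, norm_mul, Real.norm_eq_abs, abs_of_pos (Real.exp_pos _)]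
    refine le_trans (mul_le_mul_of_nonneg_left ?_ (Real.exp_pos _).le)
      (exp_integral_abs_le (μ := μ) hs hθ0 hθ h0)
    exact norm_integral_le_integral_norm _

theorem lap_shift (w : EE n → ℝ) (x z : EE n) : (Δ fun y => w (x + y)) z = (Δ w) (x + z) := by
  rw [laplacian_eq_iteratedFDeriv_orthonormalBasis _ (EuclideanSpace.basisFun (Fin n) ℝ),
    laplacian_eq_iteratedFDeriv_orthonormalBasis _ (EuclideanSpace.basisFun (Fin n) ℝ)]
  simp only [iteratedFDeriv_comp_add_left]

/-- REPRESENTATION: `w = (μ - Δ)⁻¹ (μ w - Δ w)` for `C²` functions of growth `e^{a|x|}`, `a² < μ`. -/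
theorem rep {μ a M : ℝ} (hμ : 0 < μ) (ha0 : 0 ≤ a) (ha : a ^ 2 < μ) {w : EE n → ℝ}
    (hw : ContDiff ℝ 2 w) (h0 : Gr a M w) (h2 : Gr a M (Δ w)) (x : EE n) :
    w x = ∫ z, Gk μ z * (μ * w (x + z) - (Δ w) (x + z)) := by
  have e : (Δ fun y => w (x + y)) = fun z => (Δ w) (x + z) := funext (lap_shift w x)
  have h := rep_zero hμ ha0 ha (w := fun y => w (x + y))
    (hw.comp (contDiff_const.add contDiff_id)) (h0.shift ha0 x) (by rw [e]; exact h2.shift ha0 x)
  simpa [e] using h

/-- the two forms of the convolution -/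
theorem integral_shift (g f : EE n → ℝ) (x : EE n) :
    ∫ z, g z * f (x + z) = ∫ y, g (y - x) * f y := by
  rw [← integral_add_left_eq_self (fun y => g (y - x) * f y) x]
  simp

theorem rep' {μ a M : ℝ} (hμ : 0 < μ) (ha0 : 0 ≤ a) (ha : a ^ 2 < μ) {w : EE n → ℝ}
    (hw : ContDiff ℝ 2 w) (h0 : Gr a M w) (h2 : Gr a M (Δ w)) (x : EE n) :
    w x = ∫ y, Gk μ (x - y) * (μ * w y - (Δ w) y) := by
  rw [rep hμ ha0 ha hw h0 h2 x]
  refine (integral_shift (Gk μ) (fun y => μ * w y - (Δ w) y) x).trans ?_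
  simp_rw [Gk_sub_comm μ x]

theorem integral_Gk {μ : ℝ} (hμ : 0 < μ) : ∫ z : EE n, Gk μ z = μ⁻¹ := by
  have h := rep_zero (n := n) hμ le_rfl (by simpa using hμ) (w := fun _ => 1) contDiff_const gr_one
    (gr_of_bdd fun z => by simp)
  simp only [laplacian_const, mul_one, Pi.zero_apply, sub_zero, integral_mul_const] at h
  field_simp
  linarith

end

end Crest.Agent.N067.Ker
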