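import Crest.Agent.N067.A.Defs

/-!
# Row 67 basics (helper47): calculus helpers (namespace `St`), the ground state identity,
stability of monotone solutions, stability in `d`-form, stability of limits.
-/

set_option autoImplicit false

open MeasureTheory Laplacian InnerProductSpace Topology Filter Set Metric
open scoped RealInnerProductSpace ContDiff Gradient

namespace Crest.Agent.N067

open Crest.Agent.R077

noncomputable section

variable {n : ℕ}

namespace St

theorem grad_apply (f : EE n → ℝ) (x : EE n) (i : Fin n) : (∇ f x) i = pdv i f x := by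
  have h : ⟪∇ f x, ev i⟫ = fderiv ℝ f x (ev i) := by
    simp [gradient, InnerProductSpace.toDual_symm_apply]
  unfold pdv
  rw [← h, real_inner_comm, EuclideanSpace.inner_single_left]
  simp


theorem inner_grad (f g : EE n → ℝ) (x : EE n) :
    ⟪∇ f x, ∇ g x⟫ = ∑ i, pdv i f x * pdv i g x := by
  rw [PiLp.inner_apply]
  refine Finset.sum_congr rfl fun i _ => ?_
  rw [grad_apply, grad_apply]
  simp [mul_comm]

theorem norm_grad_sq (f : EE n → ℝ) (x : EE n) : ‖∇ f x‖ ^ 2 = ∑ i, pdv i f x ^ 2 := by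
  rw [← real_inner_self_eq_norm_sq, inner_grad]
  simp [sq]

theorem norm_grad (f : EE n → ℝ) (x : EE n) : ‖∇ f x‖ = ‖fderiv ℝ f x‖ := by
  simp [gradient]

theorem continuous_pdv {f : EE n → ℝ} (hf : ContDiff ℝ 1 f) (i : Fin n) : Continuous (pdv i f) :=
  (contDiff_pdv (m := 0) hf (by norm_num) i).continuous

theorem continuous_grad {f : EE n → ℝ} (hf : ContDiff ℝ 1 f) : Continuous (∇ f) := by
  unfold gradient
  exact (LinearIsometryEquiv.continuous _).comp (hf.continuous_fderiv (by norm_num))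

theorem contDiff_pdv_top {f : EE n → ℝ} (hf : ContDiff ℝ ∞ f) (i : Fin n) :
    ContDiff ℝ ∞ (pdv i f) :=
  contDiff_pdv hf (by simp) i

theorem fderiv_apply_fderiv {f : EE n → ℝ} {x : EE n} (hf : ContDiffAt ℝ 2 f x) (a b : EE n) :
    fderiv ℝ (fun y => fderiv ℝ f y b) x a = fderiv ℝ (fderiv ℝ f) x a b := by
  have hd : DifferentiableAt ℝ (fderiv ℝ f) x :=
    (hf.fderiv_right (m := 1) (by norm_num)).differentiableAt (by norm_num)
  rw [fderiv_clm_apply hd (differentiableAt_const _)]
  simp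

/-- symmetry of second derivatives, directional form -/
theorem dir_comm {f : EE n → ℝ} {x : EE n} (hf : ContDiffAt ℝ 2 f x) (a b : EE n) :
    fderiv ℝ (fun y => fderiv ℝ f y b) x a = fderiv ℝ (fun y => fderiv ℝ f y a) x b := by
  rw [fderiv_apply_fderiv hf, fderiv_apply_fderiv hf]
  exact (hf.isSymmSndFDerivAt (by simp)) a b

theorem pdv_comm {f : EE n → ℝ} {x : EE n} (hf : ContDiffAt ℝ 2 f x) (i j : Fin n) :
    pdv i (pdv j f) x = pdv j (pdv i f) x :=
  dir_comm hf (ev i) (ev j)

theorem contDiff_dir {f : EE n → ℝ} {m k : WithTop ℕ∞} (hf : ContDiff ℝ k f) (hmk : m + 1 ≤ k)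
    (e : EE n) : ContDiff ℝ m fun y => fderiv ℝ f y e :=
  (hf.fderiv_right (m := m) hmk).clm_apply contDiff_const

/-- the Laplacian commutes with directional derivatives -/
theorem lap_dir {f : EE n → ℝ} (hf : ContDiff ℝ 3 f) (e x : EE n) :
    (Δ fun y => fderiv ℝ f y e) x = fderiv ℝ (Δ f) x e := by
  have h2 : ContDiff ℝ 2 f := hf.of_le (by norm_num)
  have he : ContDiff ℝ 2 fun y => fderiv ℝ f y e := contDiff_dir hf (by norm_num) e
  have hp : ∀ i, ContDiff ℝ 2 (pdv i f) := fun i => contDiff_pdv hf (by norm_num) i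
  have hpp : ∀ i, ContDiff ℝ 1 (pdv i (pdv i f)) := fun i => contDiff_pdv (hp i) (by norm_num) i
  have e1 : (Δ f) = fun y => ∑ i, pdv i (pdv i f) y := funext fun y => lap_eq h2.contDiffAt
  rw [lap_eq he.contDiffAt, e1, fderiv_fun_sum fun i _ => (hpp i).differentiable (by norm_num) x]
  simp only [FunLike.coe_sum, Finset.sum_apply]
  refine Finset.sum_congr rfl fun i _ => ?_
  have e2 : pdv i (fun y => fderiv ℝ f y e) = fun y => fderiv ℝ (pdv i f) y e :=
    funext fun y => dir_comm h2.contDiffAt (ev i) e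
  rw [e2]
  exact dir_comm (hp i).contDiffAt (ev i) e

theorem pdv_comp {f : EE n → ℝ} {F : ℝ → ℝ} {F' : ℝ} {x : EE n} (hf : DifferentiableAt ℝ f x)
    (hF : HasDerivAt F F' (f x)) (i : Fin n) : pdv i (fun y => F (f y)) x = F' * pdv i f x := by
  have h : HasFDerivAt (fun y => F (f y)) (F' • fderiv ℝ f x) x :=
    hF.comp_hasFDerivAt x hf.hasFDerivAt
  unfold pdv
  rw [h.fderiv]
  simp

theorem int_cs {f g : EE n → ℝ} (hf : Continuous f) (hg : Continuous g)
    (hc : HasCompactSupport g) : Integrable fun x => f x * g x :=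
  (hf.mul hg).integrable_of_hasCompactSupport hc.mul_left

/-- weak form of the Laplacian -/
theorem weak_lap {s g : EE n → ℝ} (hs : ContDiff ℝ 2 s) (hg : ContDiff ℝ 1 g)
    (hc : HasCompactSupport g) :
    ∫ x, (Δ s) x * g x = -∫ x, ∑ i, pdv i s x * pdv i g x := by
  have hp : ∀ i, ContDiff ℝ 1 (pdv i s) := fun i => contDiff_pdv hs (by norm_num) i
  have e1 : ∀ x, (Δ s) x * g x = ∑ i, pdv i (pdv i s) x * g x := fun x => by
    rw [lap_eq hs.contDiffAt, Finset.sum_mul]
  simp_rw [e1]
  rw [integral_finsetSum, integral_finsetSum, ← Finset.sum_neg_distrib]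
  · exact Finset.sum_congr rfl fun i _ => ibp_right (hp i) hg hc i
  · exact fun i _ => int_cs (hp i).continuous (continuous_pdv hg i) (hasCompactSupport_pdv hc i)
  · exact fun i _ => int_cs (continuous_pdv (hp i) i) hg.continuous hc

theorem cs_grad_sq {g : EE n → ℝ} (hc : HasCompactSupport g) :
    HasCompactSupport fun x => ‖∇ g x‖ ^ 2 := by
  refine HasCompactSupport.intro hc.isCompact fun x hx => ?_
  have : fderiv ℝ g x = 0 := by
    by_contra h
    exact hx (support_fderiv_subset ℝ h)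
  simp [norm_grad, this]

theorem int_grad_sq {g : EE n → ℝ} (hg : ContDiff ℝ 1 g) (hc : HasCompactSupport g) :
    Integrable fun x => ‖∇ g x‖ ^ 2 :=
  ((continuous_grad hg).norm.pow 2).integrable_of_hasCompactSupport (cs_grad_sq hc)

theorem cs_sq {g : EE n → ℝ} (hc : HasCompactSupport g) : HasCompactSupport fun x => g x ^ 2 :=
  HasCompactSupport.intro hc.isCompact fun x hx => by
    rw [image_eq_zero_of_notMem_tsupport hx]; norm_num

/-- ground state identity `∫ |∇(σ w)|² = ∫ σ² |∇w|² - ∫ σ Δσ w²` -/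
theorem ground {s w : EE n → ℝ} (hs : ContDiff ℝ 2 s) (hw : ContDiff ℝ 1 w)
    (hc : HasCompactSupport w) :
    ∫ x, ‖∇ (fun y => s y * w y) x‖ ^ 2
      = (∫ x, ‖∇ w x‖ ^ 2 * s x ^ 2) - ∫ x, (Δ s) x * (s x * w x ^ 2) := by
  have hs1 : ContDiff ℝ 1 s := hs.of_le (by norm_num)
  have ds := hs1.differentiable (by norm_num)
  have dw := hw.differentiable (by norm_num)
  have hg : ContDiff ℝ 1 fun x => s x * w x ^ 2 := hs1.mul (hw.pow 2)
  have hgc : HasCompactSupport fun x => s x * w x ^ 2 := (cs_sq hc).mul_left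
  rw [weak_lap hs hg hgc, sub_neg_eq_add, ← integral_add]
  · refine integral_congr_ae (Eventually.of_forall fun x => ?_)
    simp only [norm_grad_sq, Finset.sum_mul, ← Finset.sum_add_distrib]
    refine Finset.sum_congr rfl fun i _ => ?_
    have h2 : pdv i (fun y => w y ^ 2) x = 2 * w x * pdv i w x := by
      have := pdv_comp (F := fun t => t ^ 2) (dw x) (hasDerivAt_pow 2 (w x)) i
      simpa using this
    rw [pdv_mul (ds x) (dw x), pdv_mul (g := fun y => w y ^ 2) (ds x) ((dw x).fun_pow 2), h2]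
    ring
  · simpa only [mul_comm] using int_cs (hs.continuous.fun_pow 2)
      ((continuous_grad hw).norm.fun_pow 2) (cs_grad_sq hc)
  · exact integrable_finsetSum _ fun i _ => int_cs (continuous_pdv hs1 i) (continuous_pdv hg i)
      (hasCompactSupport_pdv hgc i)

/-- a positive supersolution of `Δ - c` gives nonnegativity of the quadratic form -/
theorem form_nonneg {s c : EE n → ℝ} (hs : ContDiff ℝ 2 s) (hpos : ∀ x, 0 < s x)
    (hcc : Continuous c) (hL : ∀ x, (Δ s) x ≤ c x * s x) {φ : EE n → ℝ} (hφ : ContDiff ℝ 1 φ)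
    (hc : HasCompactSupport φ) : 0 ≤ ∫ x, (‖∇ φ x‖ ^ 2 + c x * φ x ^ 2) := by
  have hs1 : ContDiff ℝ 1 s := hs.of_le (by norm_num)
  have hw : ContDiff ℝ 1 fun x => φ x / s x := hφ.div hs1 fun x => (hpos x).ne'
  have hwc : HasCompactSupport fun x => φ x / s x := by
    simp only [div_eq_mul_inv]; exact hc.mul_right
  have h := ground hs hw hwc
  have e : (fun y => s y * (φ y / s y)) = φ := funext fun y => by
    have := (hpos y).ne'; field_simp
  rw [e] at h
  have i1 := int_cs hcc (hφ.continuous.fun_pow 2) (cs_sq hc)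
  rw [integral_add (int_grad_sq hφ hc) i1, h]
  have h1 : 0 ≤ ∫ x, ‖∇ (fun x => φ x / s x) x‖ ^ 2 * s x ^ 2 :=
    integral_nonneg fun x => by positivity
  have h2 : ∫ x, (Δ s) x * (s x * (φ x / s x) ^ 2) ≤ ∫ x, c x * φ x ^ 2 := by
    refine integral_mono (int_cs (continuous_lap hs) (hs.continuous.mul (hw.continuous.pow 2))
      (cs_sq hwc).mul_left) i1 fun x => ?_
    have h3 := hpos x
    have h4 : c x * φ x ^ 2 = c x * s x * (s x * (φ x / s x) ^ 2) := by field_simp
    simp only
    rw [h4]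
    exact mul_le_mul_of_nonneg_right (hL x) (by positivity)
  linarith

/-- the linearised equation of a directional derivative -/
theorem lap_dir_sol {u : EE n → ℝ} (hu : ContDiff ℝ 3 u) (he : ∀ x, (Δ u) x = u x ^ 3 - u x)
    (e x : EE n) : (Δ fun y => fderiv ℝ u y e) x = (3 * u x ^ 2 - 1) * fderiv ℝ u x e := by
  rw [lap_dir hu, show (Δ u) = fun y => u y ^ 3 - u y from funext he]
  have h1 : HasDerivAt (fun t : ℝ => t ^ 3 - t) (3 * u x ^ 2 - 1) (u x) := by
    have := (hasDerivAt_pow 3 (u x)).fun_sub (hasDerivAt_id' (u x))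
    exact this.congr_deriv (by norm_num)
  have h2 : HasFDerivAt (fun y => u y ^ 3 - u y) ((3 * u x ^ 2 - 1) • fderiv ℝ u x) x :=
    h1.comp_hasFDerivAt x (hu.differentiable (by norm_num) x).hasFDerivAt
  rw [h2.fderiv]
  simp

/-- a solution with a positive directional derivative is stable -/
theorem stable_of_dir {u : EE n → ℝ} (hu : ContDiff ℝ 3 u) (he : ∀ x, (Δ u) x = u x ^ 3 - u x)
    {e : EE n} (hpos : ∀ x, 0 < fderiv ℝ u x e) : Stable u := fun _ hφ hc =>
  form_nonneg (contDiff_dir hu (by norm_num) e) hpos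
    ((continuous_const.mul (hu.continuous.pow 2)).sub continuous_const)
    (fun x => (lap_dir_sol hu he e x).le) hφ hc

theorem hasDerivAt_artanh {s : ℝ} (hs : |s| < 1) :
    HasDerivAt Real.artanh (1 / (1 - s ^ 2)) s := by
  obtain ⟨h1, h2⟩ := abs_lt.1 hs
  have e : Real.artanh =ᶠ[𝓝 s] fun t => 1 / 2 * (Real.log (1 + t) - Real.log (1 - t)) := by
    filter_upwards [Ioo_mem_nhds h1 h2] with t ht
    rw [Real.artanh_eq_half_log ⟨ht.1.le, ht.2.le⟩,
      Real.log_div (by linarith [ht.1]) (by linarith [ht.2])]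
  have a : HasDerivAt (fun t => Real.log (1 + t)) (1 / (1 + s)) s :=
    ((hasDerivAt_id s).const_add 1).log (by simp only [id]; linarith)
  have b : HasDerivAt (fun t => Real.log (1 - t)) (-1 / (1 - s)) s :=
    ((hasDerivAt_id s).const_sub 1).log (by simp only [id]; linarith)
  refine (((a.sub b).const_mul (1 / 2)).congr_deriv ?_).congr_of_eventuallyEq e
  have h3 : 1 + s ≠ 0 := by linarith
  have h4 : 1 - s ≠ 0 := by linarith
  have h5 : 1 - s ^ 2 ≠ 0 := by
    rw [show 1 - s ^ 2 = (1 + s) * (1 - s) by ring]; exact mul_ne_zero h3 h4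
  field_simp
  ring

end St

open St

theorem Sol.psi_pos {v : EE n → ℝ} (h : Sol v) (x : EE n) : 0 < psi v x := by
  have := sq_lt_one_iff_abs_lt_one (v x) |>.2 (h.lt x)
  unfold psi; linarith

theorem Sol.contDiff_psi {v : EE n → ℝ} (h : Sol v) : ContDiff ℝ ∞ (psi v) :=
  contDiff_const.sub (h.sm.pow 2)

/-- `∇ v = ψ ∇ d / √2` -/
theorem Sol.pdv_dd {v : EE n → ℝ} (h : Sol v) (i : Fin n) (x : EE n) :
    pdv i (dd v) x = Real.sqrt 2 / psi v x * pdv i v x := by
  have := pdv_comp (F := fun t => Real.sqrt 2 * Real.artanh t)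
    (h.sm.differentiable (by simp) x) ((hasDerivAt_artanh (h.lt x)).const_mul _) i
  rw [show dd v = fun y => Real.sqrt 2 * Real.artanh (v y) from rfl, this]
  unfold psi
  ring

theorem Sol.grad_sq {v : EE n → ℝ} (h : Sol v) (x : EE n) :
    2 * ‖∇ v x‖ ^ 2 = psi v x ^ 2 * (1 - tt v x) := by
  unfold tt
  simp only [norm_grad_sq, h.pdv_dd, mul_pow, div_pow, Real.sq_sqrt (zero_le_two (α := ℝ)),
    ← Finset.mul_sum]
  have := (h.psi_pos x).ne'
  field_simp
  ring

/-- `(2 - Δ) ψ = ψ² (3 - t)` in the form `Δ ψ = (3v² - 1) ψ + q ψ` -/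
theorem Sol.lap_psi {v : EE n → ℝ} (h : Sol v) (x : EE n) :
    (Δ (psi v)) x = (3 * v x ^ 2 - 1) * psi v x + qq v x * psi v x := by
  have h2 := h.isSol.c2
  have e : psi v = fun y => 1 - v y * v y := funext fun y => by unfold psi; ring
  have h1 : (Δ fun y => 1 - v y * v y) x
      = (Δ fun _ : EE n => (1 : ℝ)) x - (Δ fun y => v y * v y) x :=
    (contDiffAt_const (c := (1 : ℝ))).laplacian_sub (h2.mul h2).contDiffAt
  have h3 := h.grad_sq x
  rw [norm_grad_sq] at h3
  have h4 : ∑ i, pdv i v x * pdv i v x = ∑ i, pdv i v x ^ 2 := by simp [sq]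
  have h5 : (Δ (psi v)) x = (Δ fun y => 1 - v y * v y) x := by rw [← e]
  rw [h5, h1, lap_mul h2 h2, h.eq, h4, h3]
  simp only [laplacian_const, Pi.zero_apply]
  unfold qq psi
  ring

theorem Sol.continuous_tt {v : EE n → ℝ} (h : Sol v) : Continuous (tt v) := by
  have e : tt v = fun x => 1 - 2 * ‖∇ v x‖ ^ 2 / psi v x ^ 2 := funext fun x => by
    have := (h.psi_pos x).ne'
    rw [h.grad_sq]; field_simp; ring
  rw [e]
  exact continuous_const.sub ((continuous_const.mul
    ((continuous_grad (h.isSol.c2.of_le (by norm_num))).norm.pow 2)).div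
    (h.contDiff_psi.continuous.pow 2) fun x => pow_ne_zero 2 (h.psi_pos x).ne')

theorem Sol.continuous_qq {v : EE n → ℝ} (h : Sol v) : Continuous (qq v) :=
  h.contDiff_psi.continuous.mul h.continuous_tt

theorem dstab : DStabStmt := by
  intro n v h hst w hw hc
  have hp2 : ContDiff ℝ 2 (psi v) := contDiff_infty.1 h.contDiff_psi 2
  have hp := hp2.continuous
  have hφ : ContDiff ℝ 1 fun y => psi v y * w y := (hp2.of_le (by norm_num)).mul hw
  have hφc : HasCompactSupport fun y => psi v y * w y := hc.mul_left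
  have h1 := hst _ hφ hφc
  have cv : Continuous fun x => 3 * v x ^ 2 - 1 :=
    (continuous_const.mul (h.sm.continuous.pow 2)).sub continuous_const
  have i1 := int_cs cv (hφ.continuous.fun_pow 2) (cs_sq hφc)
  have i2 : Integrable fun x => qq v x * w x ^ 2 * psi v x ^ 2 := by
    have := int_cs (h.continuous_qq.mul (hp.pow 2)) (hw.continuous.pow 2) (cs_sq hc)
    refine this.congr (Eventually.of_forall fun x => ?_)
    simp only [Pi.mul_apply, Pi.pow_apply]; ring
  rw [integral_add (int_grad_sq hφ hφc) i1, ground hp2 hw hc] at h1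
  have h2 : ∫ x, (Δ (psi v)) x * (psi v x * w x ^ 2)
      = (∫ x, (3 * v x ^ 2 - 1) * (psi v x * w x) ^ 2)
        + ∫ x, qq v x * w x ^ 2 * psi v x ^ 2 := by
    rw [← integral_add i1 i2]
    refine integral_congr_ae (Eventually.of_forall fun x => ?_)
    simp only [h.lap_psi]; ring
  linarith

theorem monoStab_of (hR : RegStmt) : MonoStabStmt := fun n u hu hm => by
  obtain ⟨C, hC⟩ := hR (n + 1) 0
  exact stable_of_dir (contDiff_infty.1 (hC u hu).1 3) hu.eq hm

theorem stabLim : StabLimStmt := by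
  intro n v w hv hst hlim φ hφ hc
  have i0 := int_grad_sq hφ hc
  have i1 : Integrable fun x => φ x ^ 2 :=
    (hφ.continuous.pow 2).integrable_of_hasCompactSupport (cs_sq hc)
  refine ge_of_tendsto' (tendsto_integral_of_dominated_convergence
    (F := fun j x => ‖∇ φ x‖ ^ 2 + (3 * v j x ^ 2 - 1) * φ x ^ 2)
    (fun x => ‖∇ φ x‖ ^ 2 + 2 * φ x ^ 2) (fun j => ?_) (i0.add (i1.const_mul 2))
    (fun j => Eventually.of_forall fun x => ?_) (Eventually.of_forall fun x => ?_))
    fun j => hst j φ hφ hc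
  · exact (((continuous_grad hφ).norm.pow 2).add (((continuous_const.mul
      ((hv j).c2.continuous.pow 2)).sub continuous_const).mul
      (hφ.continuous.pow 2))).aestronglyMeasurable
  · have h1 : v j x ^ 2 ≤ 1 := (sq_le_one_iff_abs_le_one _).2 ((hv j).bd x)
    have h2 := sq_nonneg (v j x)
    have h3 := sq_nonneg (φ x)
    have h4 := sq_nonneg ‖∇ φ x‖
    rw [Real.norm_eq_abs, abs_le]
    constructor <;> nlinarith
  · exact tendsto_const_nhds.add (((((hlim x).pow 2).const_mul 3).sub_const 1).mul_const _)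

end

end Crest.Agent.N067
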